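import Mathlib

/-! P319, block SC, QL2-R, part 1: elementary facts on `f = 1 * χ₁` and its inverse. -/

set_option linter.all false

namespace Vale.Agent.P319.SC.QL.H272

open Finset ArithmeticFunction

/-! ### Double sums -/

theorem box {R : Type*} [AddCommMonoid R] (F : ℕ × ℕ → R) (N : ℕ) :
    ∑ n ∈ Ioc 0 N, ∑ p ∈ n.divisorsAntidiagonal, F p =
      ∑ p ∈ Ioc 0 N ×ˢ Ioc 0 N with p.1 * p.2 ≤ N, F p := by
  trans ∑ n ∈ Ioc 0 N, ∑ p ∈ Ioc 0 N ×ˢ Ioc 0 N with p.1 * p.2 = n, F p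
  · refine sum_congr rfl fun n hn => ?_
    simp only [mem_Ioc] at hn
    rw [Nat.divisorsAntidiagonal_eq_prod_filter_of_le hn.1.ne' hn.2]
  · simp_rw [sum_filter]
    rw [sum_comm]
    refine sum_congr rfl fun p hp => ?_
    simp only [mem_product, mem_Ioc] at hp
    rw [Finset.sum_ite_eq]
    have : 0 < p.1 * p.2 := Nat.mul_pos hp.1.1 hp.2.1
    simp [mem_Ioc, this]

theorem dbl_sum {R : Type*} [CommSemiring R] (u v : ℕ → R) (x : ℕ) :
    ∑ n ∈ Ioc 0 x, ∑ p ∈ n.divisorsAntidiagonal, u p.1 * v p.2 =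
      ∑ b ∈ Ioc 0 x, v b * ∑ a ∈ Ioc 0 (x / b), u a := by
  rw [box (fun p => u p.1 * v p.2), sum_filter, sum_product_right]
  refine sum_congr rfl fun b hb => ?_
  rw [mem_Ioc] at hb
  rw [← sum_filter, mul_sum]
  refine sum_congr ?_ fun a _ => mul_comm _ _
  ext a
  simp only [mem_filter, mem_Ioc]
  rw [Nat.le_div_iff_mul_le hb.1]
  constructor
  · rintro ⟨⟨h1, -⟩, h3⟩
    exact ⟨h1, h3⟩
  · rintro ⟨h1, h3⟩
    exact ⟨⟨h1, (Nat.le_mul_of_pos_right a hb.1).trans h3⟩, h3⟩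

/-- the hyperbola method -/
theorem hyperbola {R : Type*} [CommSemiring R] (u v : ℕ → R) (x : ℕ) {y : ℕ} (hy : 0 < y) :
    ∑ n ∈ Ioc 0 x, ∑ p ∈ n.divisorsAntidiagonal, u p.1 * v p.2 =
      ∑ b ∈ Ioc 0 y, v b * ∑ a ∈ Ioc 0 (x / b), u a +
        ∑ a ∈ Ioc 0 (x / y), u a * ∑ b ∈ Ioc y (x / a), v b := by
  have h1 : ∑ b ∈ Ioc 0 x, v b * ∑ a ∈ Ioc 0 (x / b), u a =
      ∑ b ∈ Ioc 0 (x + y), v b * ∑ a ∈ Ioc 0 (x / b), u a := by
    refine sum_subset (Ioc_subset_Ioc_right (by omega)) ?_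
    intro b _ hb
    rw [mem_Ioc] at hb
    have : x / b = 0 := by
      rw [Nat.div_eq_zero_iff]
      by_cases h : b = 0
      · exact Or.inl h
      · right; by_contra h2; exact hb ⟨by omega, by omega⟩
    rw [this]
    simp
  have h2 : Ioc 0 (x + y) = Ioc 0 y ∪ Ioc y (x + y) := by
    rw [Ioc_union_Ioc_eq_Ioc (by omega) (by omega)]
  rw [dbl_sum, h1, h2, sum_union (by
    rw [Finset.disjoint_left]
    intro a ha hb
    rw [mem_Ioc] at ha hb
    omega)]
  congr 1
  simp_rw [mul_sum]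
  rw [sum_comm' (t' := Ioc 0 (x / y)) (s' := fun a => Ioc y (x / a))]
  · refine sum_congr rfl fun a _ => sum_congr rfl fun b _ => mul_comm _ _
  · intro b a
    simp only [mem_Ioc]
    constructor
    · rintro ⟨⟨h3, h4⟩, h5, h6⟩
      have hb : 0 < b := by omega
      rw [Nat.le_div_iff_mul_le hb] at h6
      refine ⟨⟨h3, ?_⟩, h5, ?_⟩
      · rw [Nat.le_div_iff_mul_le h5, mul_comm]; exact h6
      · rw [Nat.le_div_iff_mul_le hy]
        exact (Nat.mul_le_mul_left a h3.le).trans h6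
    · rintro ⟨⟨h3, h4⟩, h5, h6⟩
      have hb : 0 < b := by omega
      rw [Nat.le_div_iff_mul_le h5] at h4
      refine ⟨⟨h3, ?_⟩, h5, ?_⟩
      · have : b ≤ b * a := Nat.le_mul_of_pos_right b h5
        omega
      · rw [Nat.le_div_iff_mul_le hb, mul_comm]; exact h4

/-! ### Mollifier -/

theorem moll {f g : ArithmeticFunction ℂ} (hfg : f * g = 1) (w : ℕ → ℂ) (hw1 : w 1 = 1)
    (hw : ∀ a b, 0 < a → 0 < b → w (a * b) = w a * w b) {N : ℕ} (hN : 0 < N) :
    (∑ a ∈ Ioc 0 N, f a * w a) * (∑ b ∈ Ioc 0 N, g b * w b) =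
      1 + ∑ p ∈ Ioc 0 N ×ˢ Ioc 0 N with ¬ p.1 * p.2 ≤ N, f p.1 * g p.2 * (w p.1 * w p.2) := by
  have h1 : ∑ p ∈ Ioc 0 N ×ˢ Ioc 0 N with p.1 * p.2 ≤ N, f p.1 * g p.2 * (w p.1 * w p.2) = 1 := by
    rw [← box (fun p => f p.1 * g p.2 * (w p.1 * w p.2))]
    have h2 : ∀ n ∈ Ioc 0 N, ∑ p ∈ n.divisorsAntidiagonal, f p.1 * g p.2 * (w p.1 * w p.2) =
        if n = 1 then 1 else 0 := by
      intro n hn
      have h3 : ∑ p ∈ n.divisorsAntidiagonal, f p.1 * g p.2 * (w p.1 * w p.2) =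
          (f * g) n * w n := by
        rw [mul_apply, sum_mul]
        refine sum_congr rfl fun p hp => ?_
        rw [Nat.mem_divisorsAntidiagonal] at hp
        have h4 : 0 < p.1 := Nat.pos_of_ne_zero fun h => hp.2 (by rw [← hp.1, h, zero_mul])
        have h5 : 0 < p.2 := Nat.pos_of_ne_zero fun h => hp.2 (by rw [← hp.1, h, mul_zero])
        rw [← hw _ _ h4 h5, hp.1]
      rw [h3, hfg, one_apply]
      split_ifs with h
      · rw [h, hw1, one_mul]
      · rw [zero_mul]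
    rw [sum_congr rfl h2, sum_ite_eq', if_pos (by rw [mem_Ioc]; omega)]
  rw [← h1, sum_filter_add_sum_filter_not, sum_mul_sum, ← sum_product']
  refine sum_congr rfl fun p _ => ?_
  ring

/-! ### Real completely multiplicative functions -/

/-- completely multiplicative functions with values `0`, `1`, `-1` -/
structure CM (X : ℕ → ℝ) : Prop where
  one : X 1 = 1
  mul : ∀ a b, X (a * b) = X a * X b
  val : ∀ a, X a = 0 ∨ X a = 1 ∨ X a = -1

/-- `X` as an arithmetic function -/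
noncomputable def aX (X : ℕ → ℝ) : ArithmeticFunction ℝ := ⟨fun n => if n = 0 then 0 else X n, by simp⟩

/-- `1 * X` -/
noncomputable def fX (X : ℕ → ℝ) : ArithmeticFunction ℝ := (zeta : ArithmeticFunction ℝ) * aX X

/-- the inverse of `1 * X` -/
noncomputable def gX (X : ℕ → ℝ) : ArithmeticFunction ℝ :=
  (moebius : ArithmeticFunction ℝ) * ((aX X).pmul (moebius : ArithmeticFunction ℝ))

theorem aX_apply (X : ℕ → ℝ) {n : ℕ} (hn : n ≠ 0) : aX X n = X n := by
  simp [aX, hn]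

section
variable {X : ℕ → ℝ} (hX : CM X)
include hX

theorem aX_mult : (aX X).IsMultiplicative := by
  rw [IsMultiplicative.iff_ne_zero]
  refine ⟨by rw [aX_apply X one_ne_zero, hX.one], fun {m n} hm hn _ => ?_⟩
  rw [aX_apply X hm, aX_apply X hn, aX_apply X (mul_ne_zero hm hn), hX.mul]

theorem fX_mult : (fX X).IsMultiplicative :=
  isMultiplicative_zeta.natCast.mul (aX_mult hX)

theorem gX_mult : (gX X).IsMultiplicative :=
  (isMultiplicative_moebius.intCast).mul ((aX_mult hX).pmul isMultiplicative_moebius.intCast)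

theorem fX_mul_gX : fX X * gX X = 1 := by
  have h1 : aX X * (aX X).pmul (moebius : ArithmeticFunction ℝ) = 1 := by
    ext n
    have h2 : (aX X * (aX X).pmul (moebius : ArithmeticFunction ℝ)) n =
        X n * ((zeta : ArithmeticFunction ℝ) * (moebius : ArithmeticFunction ℝ)) n := by
      rw [mul_apply, mul_apply, mul_sum]
      refine sum_congr rfl fun p hp => ?_
      rw [Nat.mem_divisorsAntidiagonal] at hp
      have h4 : p.1 ≠ 0 := fun h => hp.2 (by rw [← hp.1, h, zero_mul])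
      have h5 : p.2 ≠ 0 := fun h => hp.2 (by rw [← hp.1, h, mul_zero])
      rw [pmul_apply, aX_apply X h4, aX_apply X h5, ← hp.1, hX.mul, natCoe_apply, zeta_apply_ne h4]
      push_cast
      ring
    rw [h2, coe_zeta_mul_coe_moebius, one_apply]
    split_ifs with h
    · rw [h, hX.one, one_mul]
    · rw [mul_zero]
  have h3 : fX X * gX X = ((zeta : ArithmeticFunction ℝ) * (moebius : ArithmeticFunction ℝ)) *
      (aX X * (aX X).pmul (moebius : ArithmeticFunction ℝ)) := by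
    rw [fX, gX]; ring
  rw [h3, h1, coe_zeta_mul_coe_moebius, one_mul]

theorem X_pow (p k : ℕ) : X (p ^ k) = X p ^ k := by
  induction k with
  | zero => rw [pow_zero, pow_zero, hX.one]
  | succ k ih => rw [pow_succ, pow_succ, hX.mul, ih]

theorem fX_pow {p : ℕ} (hp : p.Prime) (k : ℕ) : fX X (p ^ k) = ∑ i ∈ range (k + 1), X p ^ i := by
  rw [fX, coe_zeta_mul_apply, Nat.sum_divisors_prime_pow hp]
  refine sum_congr rfl fun i _ => ?_
  rw [aX_apply X (pow_ne_zero _ hp.ne_zero), X_pow hX]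

theorem fX_pow_nonneg {p : ℕ} (hp : p.Prime) (k : ℕ) : 0 ≤ fX X (p ^ k) := by
  rw [fX_pow hX hp]
  rcases hX.val p with h | h | h
  · rw [h]; exact sum_nonneg fun i _ => pow_nonneg le_rfl _
  · rw [h]; exact sum_nonneg fun i _ => by rw [one_pow]; exact zero_le_one
  · rw [h, neg_one_geom_sum]
    split_ifs
    · exact le_rfl
    · exact zero_le_one

theorem fX_nonneg (n : ℕ) : 0 ≤ fX X n := by
  rcases eq_or_ne n 0 with rfl | hn
  · simp
  · rw [(fX_mult hX).multiplicative_factorization _ hn]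
    exact Finset.prod_nonneg fun p hp => fX_pow_nonneg hX (Nat.prime_of_mem_primeFactors hp) _

end

/-! ### Bound for the inverse -/

/-- the indicator function of the squares -/
noncomputable def sqf : ArithmeticFunction ℝ :=
  ⟨fun n => by classical exact if n ≠ 0 ∧ IsSquare n then 1 else 0, by simp⟩

theorem sqf_sq {c : ℕ} (hc : c ≠ 0) : sqf (c * c) = 1 := by
  classical
  show (if c * c ≠ 0 ∧ IsSquare (c * c) then (1 : ℝ) else 0) = 1
  rw [if_pos ⟨mul_ne_zero hc hc, c, rfl⟩]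

theorem sqf_of_not {n : ℕ} (hn : ¬ IsSquare n) : sqf n = 0 := by
  classical
  show (if n ≠ 0 ∧ IsSquare n then (1 : ℝ) else 0) = 0
  rw [if_neg fun h => hn h.2]

theorem sqf_nonneg (n : ℕ) : 0 ≤ sqf n := by
  classical
  show 0 ≤ (if n ≠ 0 ∧ IsSquare n then (1 : ℝ) else 0)
  split_ifs
  · exact zero_le_one
  · exact le_rfl

theorem isSquare_left {m n : ℕ} (h : m.Coprime n) (hmn : IsSquare (m * n)) : IsSquare m := by
  obtain ⟨c, hc⟩ := hmn
  obtain ⟨d, hd⟩ := exists_eq_pow_of_mul_eq_pow (a := m) (b := n) (c := c) (k := 2)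
    (Nat.isUnit_iff.2 h) (by rw [hc, pow_two])
  exact ⟨d, by rw [hd, pow_two]⟩

theorem sqf_mult : sqf.IsMultiplicative := by
  rw [IsMultiplicative.iff_ne_zero]
  refine ⟨by have := sqf_sq one_ne_zero; simpa using this, fun {m n} hm hn hmn => ?_⟩
  by_cases h1 : IsSquare m
  · by_cases h2 : IsSquare n
    · obtain ⟨a, rfl⟩ := h1
      obtain ⟨b, rfl⟩ := h2
      have ha : a ≠ 0 := fun h => hm (by rw [h, zero_mul])
      have hb : b ≠ 0 := fun h => hn (by rw [h, zero_mul])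
      rw [sqf_sq ha, sqf_sq hb, mul_mul_mul_comm, sqf_sq (mul_ne_zero ha hb), one_mul]
    · rw [sqf_of_not h2, mul_zero, sqf_of_not]
      intro h
      rw [mul_comm] at h
      exact h2 (isSquare_left hmn.symm h)
  · rw [sqf_of_not h1, zero_mul, sqf_of_not]
    intro h
    exact h1 (isSquare_left hmn h)

/-- the majorant of `|g|` -/
noncomputable def qX (X : ℕ → ℝ) : ArithmeticFunction ℝ := sqf * fX X

section
variable {X : ℕ → ℝ} (hX : CM X)
include hX

theorem qX_mult : (qX X).IsMultiplicative := sqf_mult.mul (fX_mult hX)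

theorem le_qX {n a b : ℕ} (h : (a, b) ∈ n.divisorsAntidiagonal) : sqf a * fX X b ≤ qX X n := by
  rw [qX, mul_apply]
  exact Finset.single_le_sum (f := fun p : ℕ × ℕ => sqf p.1 * fX X p.2)
    (fun p _ => mul_nonneg (sqf_nonneg _) (fX_nonneg hX _)) h

theorem qX_nonneg (n : ℕ) : 0 ≤ qX X n := by
  rw [qX, mul_apply]
  exact Finset.sum_nonneg fun p _ => mul_nonneg (sqf_nonneg _) (fX_nonneg hX _)

theorem mul_prime_pow (u v : ArithmeticFunction ℝ) {p : ℕ} (hp : p.Prime) (k : ℕ) :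
    (u * v) (p ^ k) = ∑ i ∈ range (k + 1), u (p ^ i) * v (p ^ (k - i)) := by
  rw [mul_apply, Nat.sum_divisorsAntidiagonal (fun a b => u a * v b), Nat.sum_divisors_prime_pow hp]
  refine sum_congr rfl fun i hi => ?_
  rw [mem_range] at hi
  rw [Nat.pow_div (by omega) hp.pos]

theorem gX_pow_le {p : ℕ} (hp : p.Prime) (k : ℕ) : |gX X (p ^ k)| ≤ qX X (p ^ k) := by
  have hXp : |X p| ≤ 1 := by rcases hX.val p with h | h | h <;> rw [h] <;> simp
  have mu : ∀ i, 2 ≤ i → moebius (p ^ i) = 0 := by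
    intro i hi
    rw [moebius_apply_prime_pow hp (by omega), if_neg (by omega)]
  have hv : ∀ i, ((aX X).pmul (moebius : ArithmeticFunction ℝ)) (p ^ i) =
      X p ^ i * (moebius (p ^ i) : ℤ) := by
    intro i
    rw [pmul_apply, aX_apply X (pow_ne_zero _ hp.ne_zero), X_pow hX, intCoe_apply]
  rw [gX, mul_prime_pow hX _ _ hp]
  simp only [hv, intCoe_apply]
  rcases k with _ | _ | _ | k
  · have h1 : sqf 1 * fX X 1 ≤ qX X 1 := le_qX hX (by simp)
    have h2 : sqf 1 = 1 := by have := sqf_sq one_ne_zero; simpa using this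
    have h3 : fX X 1 = 1 := (fX_mult hX).map_one
    rw [h2, h3, mul_one] at h1
    simpa using h1
  · have h1 : sqf 1 * fX X p ≤ qX X p := le_qX hX (by simp [hp.ne_zero])
    have h2 : sqf 1 = 1 := by have := sqf_sq one_ne_zero; simpa using this
    have h3 : fX X p = 1 + X p := by
      have := fX_pow hX hp 1
      rw [pow_one] at this
      rw [this]
      simp [sum_range_succ]
    rw [h2, h3, one_mul] at h1
    simp only [zero_add, pow_one, sum_range_succ, range_zero, sum_empty, pow_zero, isUnit_one,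
      moebius_apply_one, Nat.sub_zero, moebius_apply_prime hp, Nat.sub_self]
    refine le_trans (le_of_eq ?_) h1
    have h4 : 0 ≤ 1 + X p := by
      have := (abs_le.1 hXp).1
      linarith
    rw [← abs_of_nonneg h4, ← abs_neg]
    congr 1
    push_cast
    ring
  · have h1 : sqf (p * p) * fX X 1 ≤ qX X (p ^ 2) := le_qX hX (by
      rw [Nat.mem_divisorsAntidiagonal]
      exact ⟨by ring, pow_ne_zero _ hp.ne_zero⟩)
    have h3 : fX X 1 = 1 := (fX_mult hX).map_one
    rw [sqf_sq hp.ne_zero, h3, mul_one] at h1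
    have h4 : moebius (p ^ 2) = 0 := mu 2 le_rfl
    simp only [zero_add, sum_range_succ, range_zero, sum_empty, pow_zero, one_mul, pow_one,
      moebius_apply_one, Nat.sub_zero, moebius_apply_prime hp, Nat.sub_self, Nat.reduceAdd,
      Nat.reduceSub, h4]
    refine le_trans (le_of_eq ?_) (hXp.trans h1)
    congr 1
    push_cast
    ring
  · have h1 : ∑ i ∈ range (k + 1 + 1 + 1 + 1), ((moebius (p ^ i) : ℤ) : ℝ) *
        (X p ^ (k + 1 + 1 + 1 - i) * ((moebius (p ^ (k + 1 + 1 + 1 - i)) : ℤ) : ℝ)) = 0 := by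
      refine sum_eq_zero fun i hi => ?_
      rw [mem_range] at hi
      by_cases h2 : 2 ≤ i
      · rw [mu i h2]; simp
      · rw [mu (k + 1 + 1 + 1 - i) (by omega)]; simp
    rw [h1, abs_zero]
    exact qX_nonneg hX _

theorem gX_le (n : ℕ) : |gX X n| ≤ qX X n := by
  rcases eq_or_ne n 0 with rfl | hn
  · simp
  · rw [(gX_mult hX).multiplicative_factorization _ hn,
      (qX_mult hX).multiplicative_factorization _ hn, Finsupp.prod, Finsupp.prod, abs_prod]
    exact Finset.prod_le_prod (fun _ _ => abs_nonneg _) fun p hp =>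
      gX_pow_le hX (Nat.prime_of_mem_primeFactors hp) _

end

/-! ### The sums -/

/-- harmonic sum -/
theorem harm_le (N : ℕ) (hN : 0 < N) : ∑ a ∈ Ioc 0 N, (1 : ℝ) / a ≤ 1 + Real.log N := by
  have h := harmonic_le_one_add_log N
  have h2 : ((harmonic N : ℚ) : ℝ) = ∑ a ∈ Ioc 0 N, (1 : ℝ) / a := by
    rw [harmonic_eq_sum_Icc]
    push_cast
    refine sum_congr (by ext; simp [Nat.succ_le_iff]) fun a _ => ?_
    rw [one_div]
  rwa [h2] at h

section
variable {X : ℕ → ℝ} (hX : CM X)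
include hX

theorem fX_le_card (n : ℕ) : fX X n ≤ ∑ p ∈ n.divisorsAntidiagonal, (1 : ℝ) := by
  rw [fX, mul_apply]
  refine sum_le_sum fun p hp => ?_
  rw [Nat.mem_divisorsAntidiagonal] at hp
  have h4 : p.1 ≠ 0 := fun h => hp.2 (by rw [← hp.1, h, zero_mul])
  have h5 : p.2 ≠ 0 := fun h => hp.2 (by rw [← hp.1, h, mul_zero])
  rw [natCoe_apply, zeta_apply_ne h4, aX_apply X h5, Nat.cast_one, one_mul]
  rcases hX.val p.2 with h | h | h <;> rw [h] <;> norm_num

/-- `H` -/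
theorem sum_fX_div_le (N : ℕ) (hN : 0 < N) :
    ∑ n ∈ Ioc 0 N, fX X n / n ≤ (1 + Real.log N) ^ 2 := by
  have h1 : ∀ n ∈ Ioc 0 N, fX X n / n ≤ ∑ p ∈ n.divisorsAntidiagonal, (1 / p.1 : ℝ) * (1 / p.2) := by
    intro n hn
    rw [mem_Ioc] at hn
    have hn0 : (0 : ℝ) < n := by exact_mod_cast hn.1
    rw [div_le_iff₀ hn0, sum_mul]
    refine (fX_le_card hX n).trans (le_of_eq ?_)
    refine sum_congr rfl fun p hp => ?_
    rw [Nat.mem_divisorsAntidiagonal] at hp
    have h4 : p.1 ≠ 0 := fun h => hp.2 (by rw [← hp.1, h, zero_mul])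
    have h5 : p.2 ≠ 0 := fun h => hp.2 (by rw [← hp.1, h, mul_zero])
    have h6 : (p.1 : ℝ) ≠ 0 := by exact_mod_cast h4
    have h7 : (p.2 : ℝ) ≠ 0 := by exact_mod_cast h5
    rw [← hp.1]
    push_cast
    field_simp
  refine (sum_le_sum h1).trans ?_
  rw [box (fun p : ℕ × ℕ => (1 / p.1 : ℝ) * (1 / p.2))]
  refine (sum_le_sum_of_subset_of_nonneg (filter_subset _ _) fun p _ _ => by positivity).trans ?_
  rw [sum_product]
  dsimp only
  rw [← sum_mul_sum, pow_two]
  have h2 := harm_le N hN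
  have h3 : 0 ≤ ∑ a ∈ Ioc 0 N, (1 : ℝ) / a := sum_nonneg fun a _ => by positivity
  exact mul_le_mul h2 h2 h3 (h3.trans h2)

/-- from bounds for `∑_{k ≤ n} f k` to bounds for `∑ f n / n` -/
theorem sum_Ioc_fX_div_le {R N : ℕ} (hR : 0 < R) (hRN : R ≤ N) {ε : ℝ}
    (hS : ∀ n, R ≤ n → ∑ k ∈ Ioc 0 n, fX X k ≤ ε * n) :
    ∑ n ∈ Ioc R N, fX X n / n ≤ ε * (2 + Real.log N) := by
  have hε : 0 ≤ ε := by
    have h1 := hS R le_rfl
    have h2 : 0 ≤ ∑ k ∈ Ioc 0 R, fX X k := sum_nonneg fun k _ => fX_nonneg hX k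
    have h3 : (0 : ℝ) < R := by exact_mod_cast hR
    exact nonneg_of_mul_nonneg_left (h2.trans h1) h3
  have key : ∀ N, R ≤ N → ∑ n ∈ Ioc R N, fX X n / n ≤
      (∑ k ∈ Ioc 0 N, fX X k) / N + ε * ∑ n ∈ Ioc R N, (1 : ℝ) / n := by
    intro N hN
    induction N, hN using Nat.le_induction with
    | base =>
      simp only [Ioc_self, sum_empty, mul_zero, add_zero]
      exact div_nonneg (sum_nonneg fun k _ => fX_nonneg hX k) (Nat.cast_nonneg _)
    | succ N hN ih =>
      have hN0 : (0 : ℝ) < N := by exact_mod_cast (hR.trans_le hN)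
      have h0 : ∀ F : ℕ → ℝ, ∑ n ∈ Ioc R (N + 1), F n = ∑ n ∈ Ioc R N, F n + F (N + 1) := by
        intro F
        exact sum_Ioc_succ_top (by omega) F
      have h0' : ∀ F : ℕ → ℝ, ∑ n ∈ Ioc 0 (N + 1), F n = ∑ n ∈ Ioc 0 N, F n + F (N + 1) := by
        intro F
        exact sum_Ioc_succ_top (by omega) F
      rw [h0, h0, h0']
      have h1 := hS N hN
      set S := ∑ k ∈ Ioc 0 N, fX X k with hSdef
      push_cast
      have h2 : S / N = S / (N + 1) + S / (N * (N + 1)) := by field_simp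
      have h3 : S / (N * (N + 1)) ≤ ε * (1 / (N + 1)) := by
        rw [mul_one_div, div_le_div_iff₀ (by positivity) (by positivity)]
        nlinarith
      rw [add_div, mul_add]
      rw [h2] at ih
      linarith
  refine (key N hRN).trans ?_
  have hN0 : 0 < N := by omega
  have h1 : (∑ k ∈ Ioc 0 N, fX X k) / N ≤ ε := by
    rw [div_le_iff₀ (by exact_mod_cast hN0)]
    exact hS N hRN
  have h2 : ∑ n ∈ Ioc R N, (1 : ℝ) / n ≤ 1 + Real.log N := by
    refine (sum_le_sum_of_subset_of_nonneg (Ioc_subset_Ioc_left (Nat.zero_le _))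
      fun n _ _ => by positivity).trans (harm_le N hN0)
  nlinarith [mul_le_mul_of_nonneg_left h2 hε]

end

theorem sum_inv_sq {R N : ℕ} (hR : 0 < R) (hN : R ≤ N) :
    ∑ c ∈ Ioc R N, (1 : ℝ) / (c * c) ≤ 1 / R - 1 / N := by
  induction N, hN using Nat.le_induction with
  | base => simp
  | succ N hN ih =>
    have hN0 : (0 : ℝ) < N := by exact_mod_cast (hR.trans_le hN)
    rw [sum_Ioc_succ_top hN]
    have h1 : (1 : ℝ) / ((N + 1 : ℕ) * (N + 1 : ℕ)) ≤ 1 / N - 1 / (N + 1 : ℕ) := by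
      push_cast
      rw [div_sub_div _ _ hN0.ne' (by positivity), div_le_div_iff₀ (by positivity) (by positivity)]
      nlinarith
    linarith

/-- sums over squares -/
theorem sum_sqf_le (R N : ℕ) : ∑ s ∈ Ioc (R * R) N, sqf s / s ≤ ∑ c ∈ Ioc R N, (1 : ℝ) / (c * c) := by
  classical
  have h1 : ∑ s ∈ Ioc (R * R) N, sqf s / s = ∑ s ∈ (Ioc (R * R) N).filter IsSquare, sqf s / s := by
    rw [sum_filter]
    refine sum_congr rfl fun s _ => ?_
    split_ifs with h
    · rfl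
    · rw [sqf_of_not h, zero_div]
  have h2 : (Ioc (R * R) N).filter IsSquare ⊆ (Ioc R N).image fun c => c * c := by
    intro s hs
    rw [mem_filter, mem_Ioc] at hs
    obtain ⟨⟨h3, h4⟩, c, rfl⟩ := hs
    rw [mem_image]
    refine ⟨c, ?_, rfl⟩
    rw [mem_Ioc]
    have h5 : R < c := by
      by_contra h6
      push Not at h6
      exact absurd (Nat.mul_le_mul h6 h6) (by omega)
    exact ⟨h5, (Nat.le_mul_self c).trans h4⟩
  rw [h1]
  refine (sum_le_sum_of_subset_of_nonneg h2 fun s _ _ =>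
    div_nonneg (sqf_nonneg s) (Nat.cast_nonneg s)).trans ?_
  rw [sum_image (by
    intro a _ b _ hab
    exact Nat.mul_self_inj.1 hab)]
  refine sum_le_sum fun c hc => ?_
  rw [mem_Ioc] at hc
  rw [sqf_sq (by omega)]
  push_cast
  exact le_rfl

theorem sum_sqf_div_le' (R N : ℕ) (hR : 0 < R) : ∑ s ∈ Ioc (R * R) N, sqf s / s ≤ 1 / R := by
  refine (sum_sqf_le R N).trans ?_
  by_cases h : R ≤ N
  · refine (sum_inv_sq hR h).trans ?_
    have : (0 : ℝ) ≤ 1 / N := by positivity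
    linarith
  · rw [Ioc_eq_empty (by omega), sum_empty]
    positivity

theorem sum_sqf_div_le (N : ℕ) : ∑ s ∈ Ioc 0 N, sqf s / s ≤ 2 := by
  rcases Nat.eq_zero_or_pos N with rfl | hN
  · simp
  have h1 := sum_sqf_div_le' 1 N one_pos
  have h2 : Ioc 0 N = Ioc 0 1 ∪ Ioc 1 N := by
    rw [Ioc_union_Ioc_eq_Ioc (by omega) (by omega)]
  rw [h2, sum_union (by
    rw [Finset.disjoint_left]
    intro a ha hb
    rw [mem_Ioc] at ha hb
    omega)]
  have h3 : ∑ s ∈ Ioc 0 1, sqf s / s = 1 := by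
    have := sqf_sq one_ne_zero
    simp only [mul_one] at this
    simp [this]
  rw [h3]
  simp only [mul_one, Nat.cast_one, div_one] at h1
  linarith

section
variable {X : ℕ → ℝ} (hX : CM X)
include hX

/-- the tail of the product of `∑ f` and the mollifier -/
theorem tail_le {R N : ℕ} (hR : 0 < R) (hRN : R * R * (R * R) ≤ N) :
    ∑ p ∈ Ioc 0 N ×ˢ Ioc 0 N with ¬ p.1 * p.2 ≤ N, fX X p.1 * |gX X p.2| / (p.1 * p.2) ≤
      4 * (∑ n ∈ Ioc R N, fX X n / n) * (∑ n ∈ Ioc 0 N, fX X n / n) +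
        (∑ n ∈ Ioc 0 N, fX X n / n) ^ 2 / R := by
  set F : ℕ → ℝ := fun n => fX X n / n with hF
  have hF0 : ∀ n, 0 ≤ F n := fun n => div_nonneg (fX_nonneg hX n) (Nat.cast_nonneg n)
  set G : ℕ → ℝ := fun s => sqf s / s with hG
  have hG0 : ∀ n, 0 ≤ G n := fun n => div_nonneg (sqf_nonneg n) (Nat.cast_nonneg n)
  have h1 : ∑ p ∈ Ioc 0 N ×ˢ Ioc 0 N with ¬ p.1 * p.2 ≤ N, fX X p.1 * |gX X p.2| / (p.1 * p.2) ≤
      ∑ a ∈ Ioc 0 N, ∑ b ∈ Ioc 0 N, ∑ q ∈ b.divisorsAntidiagonal,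
        if N < a * (q.1 * q.2) then F a * (G q.1 * F q.2) else 0 := by
    rw [sum_filter, sum_product]
    refine sum_le_sum fun a _ => sum_le_sum fun b hb => ?_
    rw [mem_Ioc] at hb
    dsimp only
    by_cases h : a * b ≤ N
    · rw [if_neg (not_not.2 h)]
      refine sum_nonneg fun q _ => ?_
      split_ifs
      · exact mul_nonneg (hF0 _) (mul_nonneg (hG0 _) (hF0 _))
      · exact le_rfl
    · rw [if_pos h]
      have h2 : ∀ q ∈ b.divisorsAntidiagonal, (if N < a * (q.1 * q.2) then F a * (G q.1 * F q.2) else 0)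
          = F a * (1 / b) * (sqf q.1 * fX X q.2) := by
        intro q hq
        rw [Nat.mem_divisorsAntidiagonal] at hq
        have h4 : (q.1 : ℝ) ≠ 0 := by
          exact_mod_cast fun h => hq.2 (by rw [← hq.1, h, zero_mul])
        have h5 : (q.2 : ℝ) ≠ 0 := by
          exact_mod_cast fun h => hq.2 (by rw [← hq.1, h, mul_zero])
        rw [if_pos (by rw [hq.1]; omega), hF, hG]
        dsimp only
        rw [← hq.1]
        push_cast
        field_simp
      rw [sum_congr rfl h2, ← mul_sum]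
      have h3 : ∑ q ∈ b.divisorsAntidiagonal, sqf q.1 * fX X q.2 = qX X b := by
        rw [qX, mul_apply]
      rw [h3]
      have h6 : fX X a * |gX X b| / (a * b) = F a * (1 / b) * |gX X b| := by
        rw [hF]
        dsimp only
        ring
      rw [h6]
      exact mul_le_mul_of_nonneg_left (gX_le hX b) (mul_nonneg (hF0 a) (by positivity))
  refine h1.trans ?_
  have h2 : ∀ a ∈ Ioc 0 N, ∑ b ∈ Ioc 0 N, ∑ q ∈ b.divisorsAntidiagonal,
        (if N < a * (q.1 * q.2) then F a * (G q.1 * F q.2) else 0) ≤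
      ∑ s ∈ Ioc 0 N, ∑ d ∈ Ioc 0 N,
        ((if R < a then F a * (G s * F d) else 0) + (if R < d then F a * (G s * F d) else 0) +
          (if R * R < s then F a * (G s * F d) else 0)) := by
    intro a ha
    have hterm : ∀ s d : ℕ, 0 ≤ F a * (G s * F d) := fun s d =>
      mul_nonneg (hF0 _) (mul_nonneg (hG0 _) (hF0 _))
    rw [box (fun q : ℕ × ℕ => if N < a * (q.1 * q.2) then F a * (G q.1 * F q.2) else 0)]
    refine (sum_le_sum_of_subset_of_nonneg (filter_subset _ _) fun q _ _ => ?_).trans ?_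
    · split_ifs
      · exact hterm _ _
      · exact le_rfl
    rw [sum_product]
    refine sum_le_sum fun s _ => sum_le_sum fun d _ => ?_
    dsimp only
    have h3 := hterm s d
    by_cases h4 : R < a
    · rw [if_pos h4]
      have h5 : (0:ℝ) ≤ (if R < d then F a * (G s * F d) else 0) := by split_ifs <;> simp [h3]
      have h6 : (0:ℝ) ≤ (if R * R < s then F a * (G s * F d) else 0) := by split_ifs <;> simp [h3]
      split_ifs at * <;> linarith
    · by_cases h7 : R < d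
      · rw [if_pos h7]
        have h5 : (0:ℝ) ≤ (if R < a then F a * (G s * F d) else 0) := by split_ifs <;> simp [h3]
        have h6 : (0:ℝ) ≤ (if R * R < s then F a * (G s * F d) else 0) := by split_ifs <;> simp [h3]
        split_ifs at * <;> linarith
      · by_cases h8 : R * R < s
        · rw [if_pos h8]
          have h5 : (0:ℝ) ≤ (if R < a then F a * (G s * F d) else 0) := by split_ifs <;> simp [h3]
          have h6 : (0:ℝ) ≤ (if R < d then F a * (G s * F d) else 0) := by split_ifs <;> simp [h3]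
          split_ifs at * <;> linarith
        · rw [if_neg, if_neg h4, if_neg h7, if_neg h8]
          · simp
          · push Not at h4 h7 h8 ⊢
            calc a * (s * d) ≤ R * (R * R * R) := Nat.mul_le_mul h4 (Nat.mul_le_mul h8 h7)
              _ = R * R * (R * R) := by ring
              _ ≤ N := hRN
  refine (sum_le_sum h2).trans ?_
  set H := ∑ n ∈ Ioc 0 N, F n with hH
  set E := ∑ n ∈ Ioc R N, F n with hE
  have hfil : ∀ (Φ : ℕ → ℝ) (K : ℕ), ∑ n ∈ Ioc 0 N, (if K < n then Φ n else 0) = ∑ n ∈ Ioc K N, Φ n := by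
    intro Φ K
    rw [← sum_filter]
    congr 1
    ext n
    simp only [mem_filter, mem_Ioc]
    omega
  have e1 : ∑ a ∈ Ioc 0 N, ∑ s ∈ Ioc 0 N, ∑ d ∈ Ioc 0 N, (if R < a then F a * (G s * F d) else 0) =
      E * ((∑ s ∈ Ioc 0 N, G s) * H) := by
    rw [hE, ← hfil F R, sum_mul]
    refine sum_congr rfl fun a _ => ?_
    split_ifs with h
    · rw [hH, sum_mul_sum, mul_sum]
      refine sum_congr rfl fun s _ => ?_
      rw [mul_sum]
    · simp
  have e2 : ∑ a ∈ Ioc 0 N, ∑ s ∈ Ioc 0 N, ∑ d ∈ Ioc 0 N, (if R < d then F a * (G s * F d) else 0) =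
      H * ((∑ s ∈ Ioc 0 N, G s) * E) := by
    have h9 : H * ((∑ s ∈ Ioc 0 N, G s) * E) =
        ∑ a ∈ Ioc 0 N, F a * ((∑ s ∈ Ioc 0 N, G s) * E) := by
      rw [← sum_mul (Ioc 0 N) F, ← hH]
    rw [h9]
    refine sum_congr rfl fun a _ => ?_
    rw [sum_mul (Ioc 0 N) G, mul_sum]
    refine sum_congr rfl fun s _ => ?_
    rw [hfil (fun d => F a * (G s * F d)), hE, mul_sum, mul_sum]
  have e3 : ∑ a ∈ Ioc 0 N, ∑ s ∈ Ioc 0 N, ∑ d ∈ Ioc 0 N, (if R * R < s then F a * (G s * F d) else 0) =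
      H * ((∑ s ∈ Ioc (R * R) N, G s) * H) := by
    rw [← hfil G (R * R)]
    have h9 : H * ((∑ n ∈ Ioc 0 N, if R * R < n then G n else 0) * H) =
        ∑ a ∈ Ioc 0 N, F a * ((∑ n ∈ Ioc 0 N, if R * R < n then G n else 0) * H) := by
      rw [← sum_mul (Ioc 0 N) F, ← hH]
    rw [h9]
    refine sum_congr rfl fun a _ => ?_
    rw [sum_mul, mul_sum]
    refine sum_congr rfl fun s _ => ?_
    split_ifs
    · rw [hH, mul_sum, mul_sum]
    · simp
  simp only [sum_add_distrib]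
  rw [e1, e2, e3]
  have hH0 : 0 ≤ H := sum_nonneg fun n _ => hF0 n
  have hE0 : 0 ≤ E := sum_nonneg fun n _ => hF0 n
  have s1 : ∑ s ∈ Ioc 0 N, G s ≤ 2 := sum_sqf_div_le N
  have s2 : ∑ s ∈ Ioc (R * R) N, G s ≤ 1 / R := sum_sqf_div_le' R N hR
  have t1 : E * ((∑ s ∈ Ioc 0 N, G s) * H) ≤ E * (2 * H) := by gcongr
  have t2 : H * ((∑ s ∈ Ioc 0 N, G s) * E) ≤ H * (2 * E) := by gcongr
  have t3 : H * ((∑ s ∈ Ioc (R * R) N, G s) * H) ≤ H * (1 / R * H) := by gcongr
  have t4 : H * (1 / R * H) = H ^ 2 / R := by ring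
  linarith

/-- the sum of `|g| / n` -/
theorem sum_gX_div_le (N : ℕ) (hN : 0 < N) :
    ∑ n ∈ Ioc 0 N, |gX X n| / n ≤ 2 * ∑ n ∈ Ioc 0 N, fX X n / n := by
  set F : ℕ → ℝ := fun n => fX X n / n with hF
  have hF0 : ∀ n, 0 ≤ F n := fun n => div_nonneg (fX_nonneg hX n) (Nat.cast_nonneg n)
  set G : ℕ → ℝ := fun s => sqf s / s with hG
  have hG0 : ∀ n, 0 ≤ G n := fun n => div_nonneg (sqf_nonneg n) (Nat.cast_nonneg n)
  have h1 : ∀ n ∈ Ioc 0 N, |gX X n| / n ≤ ∑ q ∈ n.divisorsAntidiagonal, G q.1 * F q.2 := by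
    intro n hn
    rw [mem_Ioc] at hn
    have h2 : ∀ q ∈ n.divisorsAntidiagonal, G q.1 * F q.2 = sqf q.1 * fX X q.2 / n := by
      intro q hq
      rw [Nat.mem_divisorsAntidiagonal] at hq
      have h4 : (q.1 : ℝ) ≠ 0 := by
        exact_mod_cast fun h => hq.2 (by rw [← hq.1, h, zero_mul])
      have h5 : (q.2 : ℝ) ≠ 0 := by
        exact_mod_cast fun h => hq.2 (by rw [← hq.1, h, mul_zero])
      rw [hF, hG]
      dsimp only
      rw [← hq.1]
      push_cast
      field_simp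
    rw [sum_congr rfl h2, ← sum_div]
    have h3 : ∑ q ∈ n.divisorsAntidiagonal, sqf q.1 * fX X q.2 = qX X n := by
      rw [qX, mul_apply]
    rw [h3]
    exact div_le_div_of_nonneg_right (gX_le hX n) (Nat.cast_nonneg n)
  refine (sum_le_sum h1).trans ?_
  rw [box (fun q : ℕ × ℕ => G q.1 * F q.2)]
  refine (sum_le_sum_of_subset_of_nonneg (filter_subset _ _) fun q _ _ =>
    mul_nonneg (hG0 _) (hF0 _)).trans ?_
  rw [sum_product]
  dsimp only
  rw [← sum_mul_sum]
  have s1 : ∑ s ∈ Ioc 0 N, G s ≤ 2 := sum_sqf_div_le N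
  have hH0 : 0 ≤ ∑ n ∈ Ioc 0 N, F n := sum_nonneg fun n _ => hF0 n
  gcongr

end

end Vale.Agent.P319.SC.QL.H272
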