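import Mathlib
import Vale.Agent.P319.SC.QL.H272.Rep1
import Vale.Agent.P319.Ev.IA3

/-! P319, block SC, QL2-R, part 2: partial sums. -/

set_option linter.all false

namespace Vale.Agent.P319.SC.QL.H272

open Finset DirichletCharacter Vale.Agent.P319.Ev.IA Vale.Agent

theorem Ioc_zero_eq (n : ℕ) : Ioc 0 n = Icc 1 n := by
  ext; simp [Nat.succ_le_iff]

theorem sum_Ioc_zero_sub {R : Type*} [AddCommGroup R] (u : ℕ → R) {y t : ℕ} (h : y ≤ t) :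
    ∑ b ∈ Ioc y t, u b = ∑ b ∈ Ioc 0 t, u b - ∑ b ∈ Ioc 0 y, u b := by
  rw [← sum_Ioc_consecutive u (Nat.zero_le y) h]
  abel

/-! ### The real character -/

/-- the values of a real character -/
noncomputable def XX {r : ℕ} (χ : DirichletCharacter ℂ r) (n : ℕ) : ℝ := (χ (n : ZMod r)).re

section
variable {r : ℕ} {χ₁ : DirichletCharacter ℂ r}

theorem XX_coe (h : χ₁ ^ 2 = 1) (n : ℕ) : ((XX χ₁ n : ℝ) : ℂ) = χ₁ (n : ZMod r) := by
  rcases MulChar.isQuadratic_iff_sq_eq_one.mpr h n with h1 | h1 | h1 <;> rw [XX, h1] <;> simp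

theorem XX_cm (h : χ₁ ^ 2 = 1) : CM (XX χ₁) := by
  refine ⟨by simp [XX], fun a b => ?_, fun a => ?_⟩
  · have h1 : ((XX χ₁ (a * b) : ℝ) : ℂ) = ((XX χ₁ a * XX χ₁ b : ℝ) : ℂ) := by
      push_cast
      rw [XX_coe h, XX_coe h, XX_coe h, Nat.cast_mul, map_mul]
    exact_mod_cast h1
  · rcases MulChar.isQuadratic_iff_sq_eq_one.mpr h a with h1 | h1 | h1
    · left; rw [XX, h1]; simp
    · right; left; rw [XX, h1]; simp
    · right; right; rw [XX, h1]; simp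

theorem abs_sum_XX_le [NeZero r] (h1 : χ₁ ≠ 1) (n : ℕ) : |∑ b ∈ Ioc 0 n, XX χ₁ b| ≤ r := by
  have h2 := P013.J.norm_charSum_le h1 n
  rw [← Ioc_zero_eq] at h2
  have h3 : ∑ b ∈ Ioc 0 n, XX χ₁ b = (∑ b ∈ Ioc 0 n, χ₁ (b : ZMod r)).re := by
    rw [Complex.re_sum]; rfl
  rw [h3]
  exact (Complex.abs_re_le_norm _).trans h2

theorem abs_sum_XX_Ioc_le [NeZero r] (h1 : χ₁ ≠ 1) (y n : ℕ) : |∑ b ∈ Ioc y n, XX χ₁ b| ≤ 2 * r := by
  by_cases h : y ≤ n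
  · rw [sum_Ioc_zero_sub _ h]
    have a := abs_sum_XX_le h1 n
    have b := abs_sum_XX_le h1 y
    have c := abs_sub (∑ b ∈ Ioc 0 n, XX χ₁ b) (∑ b ∈ Ioc 0 y, XX χ₁ b)
    linarith
  · rw [Ioc_eq_empty (by omega), sum_empty, abs_zero]
    positivity

theorem sum_XX_div_le [NeZero r] (h : χ₁ ^ 2 = 1) (h1 : χ₁ ≠ 1) {y : ℕ} (hy : 0 < y) :
    |∑ b ∈ Ioc 0 y, XX χ₁ b / b| ≤ ‖LFunction χ₁ 1‖ + 2 * r / y := by
  have h2 := P013.J.lapprox r χ₁ h1 1 (by simp) y hy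
  have h3 : ∑ n ∈ Icc 1 y, χ₁ (n : ZMod r) * (n : ℂ) ^ (-(1 : ℂ)) =
      ((∑ b ∈ Ioc 0 y, XX χ₁ b / b : ℝ) : ℂ) := by
    rw [Ioc_zero_eq]
    push_cast
    refine sum_congr rfl fun n hn => ?_
    rw [XX_coe h, Complex.cpow_neg_one, div_eq_mul_inv]
  rw [h3] at h2
  simp only [norm_one, mul_one, Complex.one_re, div_one, Real.rpow_neg_one] at h2
  have h4 := norm_le_norm_sub_add ((∑ b ∈ Ioc 0 y, XX χ₁ b / b : ℝ) : ℂ) (LFunction χ₁ 1)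
  rw [norm_sub_rev, Complex.norm_real, Real.norm_eq_abs] at h4
  rw [div_eq_mul_inv (2 * (r : ℝ)) (y : ℝ)]
  linarith

/-- the sum of `f = 1 * χ₁` -/
theorem sum_fX_le [NeZero r] (h : χ₁ ^ 2 = 1) (h1 : χ₁ ≠ 1) (hr : 2 ≤ r) {x : ℕ} (hx : r ^ 4 ≤ x) :
    ∑ k ∈ Ioc 0 x, fX (XX χ₁) k ≤ (‖LFunction χ₁ 1‖ + 5 / r) * x := by
  have hr0 : (0 : ℝ) < r := by exact_mod_cast (by omega : 0 < r)
  set y := x / r with hy
  have hy3 : r ^ 3 ≤ y := by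
    rw [hy, Nat.le_div_iff_mul_le (by omega)]
    calc r ^ 3 * r = r ^ 4 := by ring
      _ ≤ x := hx
  have hy0 : 0 < y := lt_of_lt_of_le (pow_pos (by omega) 3) hy3
  have hy0' : (0 : ℝ) < y := by exact_mod_cast hy0
  have hyr : (y : ℝ) ≤ x / r := Nat.cast_div_le
  have hyr3 : (r : ℝ) ^ 3 ≤ y := by exact_mod_cast hy3
  have hx0 : (0 : ℝ) ≤ x := Nat.cast_nonneg x
  have e1 : ∑ k ∈ Ioc 0 x, fX (XX χ₁) k =
      ∑ n ∈ Ioc 0 x, ∑ p ∈ n.divisorsAntidiagonal, (fun _ => (1 : ℝ)) p.1 * XX χ₁ p.2 := by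
    refine sum_congr rfl fun n hn => ?_
    rw [mem_Ioc] at hn
    rw [fX, ArithmeticFunction.mul_apply]
    refine sum_congr rfl fun p hp => ?_
    rw [Nat.mem_divisorsAntidiagonal] at hp
    have h4 : p.1 ≠ 0 := fun h => hp.2 (by rw [← hp.1, h, zero_mul])
    have h5 : p.2 ≠ 0 := fun h => hp.2 (by rw [← hp.1, h, mul_zero])
    rw [ArithmeticFunction.natCoe_apply, ArithmeticFunction.zeta_apply_ne h4, aX_apply _ h5,
      Nat.cast_one]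
  rw [e1, hyperbola (fun _ => (1 : ℝ)) (XX χ₁) x hy0]
  have h2 : ∑ b ∈ Ioc 0 y, XX χ₁ b * ∑ a ∈ Ioc 0 (x / b), (fun _ => (1 : ℝ)) a ≤
      x * (‖LFunction χ₁ 1‖ + 2 * r / y) + y := by
    have h3 : ∀ b ∈ Ioc 0 y, XX χ₁ b * ∑ a ∈ Ioc 0 (x / b), (fun _ => (1 : ℝ)) a ≤
        x * (XX χ₁ b / b) + 1 := by
      intro b hb
      rw [mem_Ioc] at hb
      have hb0 : (0 : ℝ) < b := by exact_mod_cast hb.1
      simp only [sum_const, Nat.card_Ioc, Nat.sub_zero, nsmul_eq_mul, mul_one]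
      have h4 : ((x / b : ℕ) : ℝ) ≤ x / b := Nat.cast_div_le
      have h5 : (x : ℝ) / b < (x / b : ℕ) + 1 := by
        rw [div_lt_iff₀ hb0]
        have := Nat.lt_div_mul_add (a := x) hb.1
        have h6 : x < (x / b + 1) * b := by
          rw [add_mul, one_mul]; exact this
        exact_mod_cast h6
      have h6 : x * (XX χ₁ b / b) = XX χ₁ b * (x / b) := by ring
      rw [h6]
      rcases (XX_cm h).val b with h7 | h7 | h7 <;> rw [h7] <;> linarith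
    refine (sum_le_sum h3).trans ?_
    rw [sum_add_distrib, ← mul_sum]
    have h4 := le_of_abs_le (sum_XX_div_le h h1 hy0)
    simp only [sum_const, Nat.card_Ioc, Nat.sub_zero, nsmul_eq_mul, mul_one]
    gcongr
  have h3 : ∑ a ∈ Ioc 0 (x / y), (fun _ => (1 : ℝ)) a * ∑ b ∈ Ioc y (x / a), XX χ₁ b ≤
      (x / y) * (2 * r) := by
    refine (sum_le_sum (g := fun _ => 2 * (r : ℝ)) fun a _ => ?_).trans ?_
    · dsimp only
      rw [one_mul]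
      exact le_of_abs_le (abs_sum_XX_Ioc_le h1 y (x / a))
    · simp only [sum_const, Nat.card_Ioc, Nat.sub_zero, nsmul_eq_mul]
      have h4 : ((x / y : ℕ) : ℝ) ≤ x / y := Nat.cast_div_le
      gcongr
  have h4 : (x : ℝ) / y * r ≤ x / r := by
    rw [div_mul_eq_mul_div, div_le_div_iff₀ hy0' hr0]
    have h5 : (r : ℝ) * r ≤ y := by
      have h6 : (r : ℝ) * r ≤ r ^ 3 := by
        have : (1 : ℝ) ≤ r := by exact_mod_cast (by omega : 1 ≤ r)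
        nlinarith [mul_nonneg hr0.le hr0.le]
      linarith
    calc (x : ℝ) * r * r = x * (r * r) := by ring
      _ ≤ x * y := by gcongr
  have h5 : (x : ℝ) * (2 * r / y) = 2 * (x / y * r) := by ring
  have h6 : (‖LFunction χ₁ 1‖ + 5 / r) * x = x * ‖LFunction χ₁ 1‖ + 5 * (x / r) := by ring
  rw [h6]
  rw [mul_add, h5] at h2
  linarith

end

/-! ### Powers -/

theorem norm_cpow_neg {n : ℕ} (hn : 0 < n) (ρ : ℂ) : ‖(n : ℂ) ^ (-ρ)‖ = (n : ℝ) ^ (-ρ.re) := by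
  have := Complex.norm_cpow_eq_rpow_re_of_pos (show (0 : ℝ) < n by exact_mod_cast hn) (-ρ)
  simpa using this

/-- the size of `n ^ (-ρ)` -/
theorem norm_w_le {n : ℕ} (hn : 0 < n) {ρ : ℂ} {η M : ℝ} (hη : 0 ≤ η) (hρ : ‖ρ - 1‖ ≤ η)
    (hM : Real.log n ≤ M) : ‖(n : ℂ) ^ (-ρ)‖ ≤ Real.exp (η * M) / n := by
  have hn0 : (0 : ℝ) < n := by exact_mod_cast hn
  rw [norm_cpow_neg hn, Real.rpow_def_of_pos hn0, le_div_iff₀ hn0]
  nth_rewrite 2 [← Real.exp_log hn0]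
  rw [← Real.exp_add]
  apply Real.exp_le_exp.2
  have h1 : |(ρ - 1).re| ≤ η := (Complex.abs_re_le_norm _).trans hρ
  rw [Complex.sub_re, Complex.one_re] at h1
  have h2 := (abs_le.1 h1).1
  have h3 : 0 ≤ Real.log n := Real.log_natCast_nonneg n
  nlinarith

theorem norm_one_sub_cpow_le {n : ℕ} (hn : 0 < n) {ρ : ℂ} {η M : ℝ} (hη : 0 ≤ η) (hρ : ‖ρ - 1‖ ≤ η)
    (hM : Real.log n ≤ M) : ‖(n : ℂ) ^ (1 - ρ)‖ ≤ Real.exp (η * M) := by
  have hn0 : (0 : ℝ) < n := by exact_mod_cast hn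
  have h0 : ‖(n : ℂ) ^ (1 - ρ)‖ = (n : ℝ) ^ (1 - ρ).re := by
    have := Complex.norm_cpow_eq_rpow_re_of_pos hn0 (1 - ρ)
    simpa using this
  rw [h0, Real.rpow_def_of_pos hn0]
  apply Real.exp_le_exp.2
  have h1 : |(ρ - 1).re| ≤ η := (Complex.abs_re_le_norm _).trans hρ
  rw [Complex.sub_re, Complex.one_re] at h1
  have h2 := (abs_le.1 h1).1
  rw [Complex.sub_re, Complex.one_re]
  have h3 : 0 ≤ Real.log n := Real.log_natCast_nonneg n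
  nlinarith

theorem w_mul (ρ : ℂ) (a b : ℕ) : ((a * b : ℕ) : ℂ) ^ (-ρ) = (a : ℂ) ^ (-ρ) * (b : ℂ) ^ (-ρ) := by
  rw [Nat.cast_mul, Complex.natCast_mul_natCast_cpow]

/-- partial sums of `L` at a zero -/
theorem norm_partial_le {r : ℕ} [NeZero r] {χ : DirichletCharacter ℂ r} (hχ : χ ≠ 1) {ρ : ℂ}
    (hρ : ‖ρ - 1‖ ≤ 1 / 2) (h0 : LFunction χ ρ = 0) {y t : ℕ} (hy : 0 < y) (ht : y * y ≤ t) :
    ‖∑ n ∈ Ioc 0 t, χ (n : ZMod r) * (n : ℂ) ^ (-ρ)‖ ≤ 6 * r / y := by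
  have hy0 : (0 : ℝ) < y := by exact_mod_cast hy
  have ht1 : 1 ≤ t := le_trans (Nat.mul_pos hy hy) ht
  have hre : 1 / 2 ≤ ρ.re := by
    have h1 := (abs_le.1 ((Complex.abs_re_le_norm _).trans hρ)).1
    rw [Complex.sub_re, Complex.one_re] at h1
    linarith
  have hn : ‖ρ‖ ≤ 3 / 2 := by
    have h1 := norm_le_norm_sub_add ρ 1
    rw [norm_one] at h1
    linarith
  have h2 := P013.J.lapprox r χ hχ ρ (by linarith) t ht1
  rw [h0, zero_sub, norm_neg, ← Ioc_zero_eq] at h2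
  refine h2.trans ?_
  have h3 : (t : ℝ) ^ (-ρ.re) ≤ 1 / y := by
    have ht1' : (1 : ℝ) ≤ t := by exact_mod_cast ht1
    calc (t : ℝ) ^ (-ρ.re) ≤ (t : ℝ) ^ (-(1 / 2) : ℝ) :=
          Real.rpow_le_rpow_of_exponent_le ht1' (by linarith)
      _ ≤ ((y * y : ℕ) : ℝ) ^ (-(1 / 2) : ℝ) :=
          Real.rpow_le_rpow_of_nonpos (by positivity) (by exact_mod_cast ht) (by norm_num)
      _ = 1 / y := by
          push_cast
          rw [Real.rpow_neg (by positivity), ← Real.sqrt_eq_rpow, Real.sqrt_mul_self hy0.le, one_div]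
  have h4 : 2 * (r : ℝ) * ‖ρ‖ / ρ.re ≤ 6 * r := by
    rw [div_le_iff₀ (by linarith)]
    have : (0 : ℝ) ≤ r := Nat.cast_nonneg r
    nlinarith
  calc 2 * (r : ℝ) * ‖ρ‖ / ρ.re * (t : ℝ) ^ (-ρ.re) ≤ 6 * r * (1 / y) := by
        gcongr
    _ = 6 * r / y := by ring

end Vale.Agent.P319.SC.QL.H272
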