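import Mathlib
import Vale.Agent.P319.SC.QL.H272.Rep2

/-! P319, block SC, QL2-R, part 3: the partial sums of `f` at a zero. -/

set_option linter.all false

namespace Vale.Agent.P319.SC.QL.H272

open Finset DirichletCharacter Vale.Agent.P319.Ev.IA Vale.Agent

section
variable {X : ℕ → ℝ} (hX : CM X) {w : ℕ → ℂ} (hw : ∀ a b, 0 < a → 0 < b → w (a * b) = w a * w b)
include hX hw

theorem fX_w (n : ℕ) : (fX X n : ℂ) * w n =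
    ∑ p ∈ n.divisorsAntidiagonal, w p.1 * ((X p.2 : ℂ) * w p.2) := by
  rw [fX, ArithmeticFunction.mul_apply]
  push_cast
  rw [sum_mul]
  refine sum_congr rfl fun p hp => ?_
  rw [Nat.mem_divisorsAntidiagonal] at hp
  have h4 : p.1 ≠ 0 := fun h => hp.2 (by rw [← hp.1, h, zero_mul])
  have h5 : p.2 ≠ 0 := fun h => hp.2 (by rw [← hp.1, h, mul_zero])
  rw [ArithmeticFunction.natCoe_apply, ArithmeticFunction.zeta_apply_ne h4, aX_apply _ h5,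
    ← hp.1, hw _ _ (Nat.pos_of_ne_zero h4) (Nat.pos_of_ne_zero h5)]
  push_cast
  ring

theorem fX_w' (n : ℕ) : (fX X n : ℂ) * w n =
    ∑ p ∈ n.divisorsAntidiagonal, ((X p.1 : ℂ) * w p.1) * w p.2 := by
  rw [fX, mul_comm _ (aX X), ArithmeticFunction.mul_apply]
  push_cast
  rw [sum_mul]
  refine sum_congr rfl fun p hp => ?_
  rw [Nat.mem_divisorsAntidiagonal] at hp
  have h4 : p.1 ≠ 0 := fun h => hp.2 (by rw [← hp.1, h, zero_mul])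
  have h5 : p.2 ≠ 0 := fun h => hp.2 (by rw [← hp.1, h, mul_zero])
  rw [ArithmeticFunction.natCoe_apply, ArithmeticFunction.zeta_apply_ne h5, aX_apply _ h4,
    ← hp.1, hw _ _ (Nat.pos_of_ne_zero h4) (Nat.pos_of_ne_zero h5)]
  push_cast
  ring

theorem sum_norm_w_le {y : ℕ} (hy : 0 < y) {T : ℝ} (hT0 : 0 ≤ T)
    (hT : ∀ a, 0 < a → a ≤ y → ‖w a‖ ≤ T / a) {e : ℕ → ℂ} {δ : ℝ}
    (he : ∀ a, 0 < a → a ≤ y → ‖e a‖ ≤ δ) (v : ℕ → ℂ) (hv : ∀ a, 0 < a → ‖v a‖ ≤ ‖w a‖) :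
    ‖∑ a ∈ Ioc 0 y, v a * e a‖ ≤ T * (1 + Real.log y) * δ := by
  have hδ : 0 ≤ δ := (norm_nonneg _).trans (he 1 one_pos hy)
  have h1 : ∀ a ∈ Ioc 0 y, ‖v a * e a‖ ≤ T * δ * (1 / a) := by
    intro a ha
    rw [mem_Ioc] at ha
    rw [norm_mul]
    have h2 := hT a ha.1 ha.2
    have h3 := he a ha.1 ha.2
    have h4 := (hv a ha.1).trans h2
    calc ‖v a‖ * ‖e a‖ ≤ T / a * δ := mul_le_mul h4 h3 (norm_nonneg _) (by positivity)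
      _ = T * δ * (1 / a) := by ring
  refine (norm_sum_le_of_le _ h1).trans ?_
  rw [← mul_sum]
  have h2 := harm_le y hy
  calc T * δ * ∑ a ∈ Ioc 0 y, (1 : ℝ) / a ≤ T * δ * (1 + Real.log y) := by gcongr
    _ = T * (1 + Real.log y) * δ := by ring

theorem norm_X_mul_le (a : ℕ) : ‖(X a : ℂ) * w a‖ ≤ ‖w a‖ := by
  rw [norm_mul, Complex.norm_real, Real.norm_eq_abs]
  have : |X a| ≤ 1 := by rcases hX.val a with h | h | h <;> rw [h] <;> simp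
  nlinarith [norm_nonneg (w a)]

/-- case 1 -/
theorem D_bound {y : ℕ} (hy : 0 < y) {T δ δ' : ℝ} (hT0 : 0 ≤ T)
    (hT : ∀ a, 0 < a → a ≤ y → ‖w a‖ ≤ T / a)
    (h1 : ∀ t, y ≤ t → ‖∑ a ∈ Ioc 0 t, w a‖ ≤ δ)
    (h2 : ∀ t, y ≤ t → ‖∑ b ∈ Ioc y t, (X b : ℂ) * w b‖ ≤ δ') :
    ‖∑ n ∈ Ioc 0 (y * y), (fX X n : ℂ) * w n‖ ≤ T * (1 + Real.log y) * (δ + δ') := by
  rw [sum_congr rfl fun n _ => fX_w hX hw n, hyperbola w (fun b => (X b : ℂ) * w b) (y * y) hy]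
  have hdiv : ∀ a, 0 < a → a ≤ y → y ≤ y * y / a := by
    intro a ha ha'
    rw [Nat.le_div_iff_mul_le ha]
    exact Nat.mul_le_mul_left y ha'
  have e1 := sum_norm_w_le hX hw hy hT0 hT (e := fun b => ∑ a ∈ Ioc 0 (y * y / b), w a) (δ := δ)
    (fun a ha ha' => h1 _ (hdiv a ha ha')) (fun b => (X b : ℂ) * w b)
    (fun a _ => norm_X_mul_le hX hw a)
  have e2 := sum_norm_w_le hX hw hy hT0 hT
    (e := fun a => ∑ b ∈ Ioc y (y * y / a), (X b : ℂ) * w b) (δ := δ')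
    (fun a ha ha' => h2 _ (hdiv a ha ha')) w (fun a _ => le_rfl)
  rw [Nat.mul_div_cancel _ hy]
  refine (norm_add_le _ _).trans ?_
  rw [mul_add]
  exact add_le_add e1 e2

end

theorem cpow_sub_le {ρ : ℂ} (hσ : 0 ≤ ρ.re) {t τ : ℝ} (ht : 0 < t) (hτ : t ≤ τ) :
    ‖(τ : ℂ) ^ (1 - ρ) - (t : ℂ) ^ (1 - ρ)‖ ≤ ‖ρ - 1‖ * t ^ (-ρ.re) * (τ - t) := by
  have h1 : ∀ u ∈ Set.Icc t τ, HasDerivWithinAt (fun u : ℝ => (u : ℂ) ^ (1 - ρ))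
      ((1 - ρ) * (u : ℂ) ^ (1 - ρ - 1)) (Set.Icc t τ) u := by
    intro u hu
    have hu0 : 0 < u := ht.trans_le hu.1
    have h1 : HasDerivAt (fun u : ℂ => u ^ (1 - ρ)) ((1 - ρ) * (u : ℂ) ^ (1 - ρ - 1) * 1) (u : ℂ) :=
      (hasDerivAt_id (u : ℂ)).cpow_const (Or.inl (by simpa using hu0))
    have h2 := h1.comp_ofReal
    rw [mul_one] at h2
    exact h2.hasDerivWithinAt
  have h2 : ∀ u ∈ Set.Icc t τ, ‖(1 - ρ) * (u : ℂ) ^ (1 - ρ - 1)‖ ≤ ‖ρ - 1‖ * t ^ (-ρ.re) := by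
    intro u hu
    have hu0 : 0 < u := ht.trans_le hu.1
    rw [norm_mul, Complex.norm_cpow_eq_rpow_re_of_pos hu0, norm_sub_rev]
    have h3 : (1 - ρ - 1).re = -ρ.re := by simp
    rw [h3]
    have h4 : u ^ (-ρ.re) ≤ t ^ (-ρ.re) := Real.rpow_le_rpow_of_nonpos ht hu.1 (by linarith)
    gcongr
  have h3 := (convex_Icc t τ).norm_image_sub_le_of_norm_hasDerivWithin_le h1 h2
    (Set.left_mem_Icc.2 hτ) (Set.right_mem_Icc.2 hτ)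
  rwa [Real.norm_eq_abs, abs_of_nonneg (by linarith)] at h3

/-- partial sums of the zeta function -/
theorem zsum_le {ρ : ℂ} (hρ : ‖ρ - 1‖ ≤ 1 / 2) (hρ1 : ρ ≠ 1) {R : ℕ} (hR : 0 < R) {x a : ℕ}
    (ha : 0 < a) (hax : R * R * a ≤ x) :
    ‖∑ b ∈ Ioc (R * R) (x / a), (b : ℂ) ^ (-ρ) -
      (((R * R : ℕ) : ℂ) ^ (1 - ρ) - (((x : ℝ) / a : ℝ) : ℂ) ^ (1 - ρ)) / (ρ - 1)‖ ≤ 7 / R := by
  have hR0 : (0 : ℝ) < R := by exact_mod_cast hR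
  have ha0 : (0 : ℝ) < a := by exact_mod_cast ha
  have hre : 1 / 2 ≤ ρ.re := by
    have h1 := (abs_le.1 ((Complex.abs_re_le_norm _).trans hρ)).1
    rw [Complex.sub_re, Complex.one_re] at h1
    linarith
  have hn : ‖ρ‖ ≤ 3 / 2 := by
    have h1 := norm_le_norm_sub_add ρ 1
    rw [norm_one] at h1
    linarith
  have hρ0 : 0 < ‖ρ - 1‖ := norm_pos_iff.2 (sub_ne_zero.2 hρ1)
  set t := x / a with ht
  have hyt : R * R ≤ t := by rw [ht, Nat.le_div_iff_mul_le ha]; exact hax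
  have hy1 : 1 ≤ R * R := Nat.mul_pos hR hR
  have ht1 : 1 ≤ t := hy1.trans hyt
  -- powers
  have hpw : ∀ u : ℕ, R * R ≤ u → (u : ℝ) ^ (-ρ.re) ≤ 1 / R := by
    intro u hu
    have hu1 : (1 : ℝ) ≤ u := by exact_mod_cast hy1.trans hu
    calc (u : ℝ) ^ (-ρ.re) ≤ (u : ℝ) ^ (-(1 / 2) : ℝ) :=
          Real.rpow_le_rpow_of_exponent_le hu1 (by linarith)
      _ ≤ ((R * R : ℕ) : ℝ) ^ (-(1 / 2) : ℝ) :=
          Real.rpow_le_rpow_of_nonpos (by positivity) (by exact_mod_cast hu) (by norm_num)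
      _ = 1 / R := by
          push_cast
          rw [Real.rpow_neg (by positivity), ← Real.sqrt_eq_rpow, Real.sqrt_mul_self hR0.le, one_div]
  have hz : ∀ u : ℕ, R * R ≤ u → ‖riemannZeta ρ - ∑ n ∈ Ioc 0 u, (n : ℂ) ^ (-ρ) -
      (u : ℂ) ^ (1 - ρ) / (ρ - 1)‖ ≤ 3 / R := by
    intro u hu
    have h1 := P013.J.zapprox ρ (by linarith) hρ1 u (hy1.trans hu)
    rw [← Ioc_zero_eq] at h1
    refine h1.trans ?_
    have h2 : ‖ρ‖ / ρ.re ≤ 3 := by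
      rw [div_le_iff₀ (by linarith)]
      linarith
    calc ‖ρ‖ / ρ.re * (u : ℝ) ^ (-ρ.re) ≤ 3 * (1 / R) := by
          gcongr
          exact hpw u hu
      _ = 3 / R := by ring
  have h1 := hz _ le_rfl
  have h2 := hz t hyt
  -- the quotient
  have htx : (t : ℝ) ≤ x / a := Nat.cast_div_le
  have htx' : (x : ℝ) / a - t ≤ 1 := by
    have h5 : (x : ℝ) / a < t + 1 := by
      rw [div_lt_iff₀ ha0]
      have h7 := Nat.lt_div_mul_add (a := x) ha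
      have h6 : x < (t + 1) * a := by
        rw [add_mul, one_mul]; exact h7
      exact_mod_cast h6
    linarith
  have ht0 : (0 : ℝ) < t := by exact_mod_cast ht1
  have h3 : ‖(((x : ℝ) / a : ℝ) : ℂ) ^ (1 - ρ) - ((t : ℝ) : ℂ) ^ (1 - ρ)‖ ≤ ‖ρ - 1‖ * (1 / R) := by
    refine (cpow_sub_le (by linarith) ht0 htx).trans ?_
    have h4 := hpw t hyt
    have h5 : 0 ≤ (t : ℝ) ^ (-ρ.re) := by positivity
    have h6 : (0 : ℝ) ≤ x / a - t := by linarith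
    calc ‖ρ - 1‖ * (t : ℝ) ^ (-ρ.re) * (x / a - t) ≤ ‖ρ - 1‖ * (1 / R) * 1 := by gcongr
      _ = _ := by ring
  have h4 : ‖((((x : ℝ) / a : ℝ) : ℂ) ^ (1 - ρ) - ((t : ℝ) : ℂ) ^ (1 - ρ)) / (ρ - 1)‖ ≤ 1 / R := by
    rw [norm_div, div_le_iff₀ hρ0]
    linarith
  have h5 : ∑ b ∈ Ioc (R * R) t, (b : ℂ) ^ (-ρ) -
      (((R * R : ℕ) : ℂ) ^ (1 - ρ) - (((x : ℝ) / a : ℝ) : ℂ) ^ (1 - ρ)) / (ρ - 1) =
      (riemannZeta ρ - ∑ n ∈ Ioc 0 (R * R), (n : ℂ) ^ (-ρ) -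
      ((R * R : ℕ) : ℂ) ^ (1 - ρ) / (ρ - 1)) - (riemannZeta ρ - ∑ n ∈ Ioc 0 t, (n : ℂ) ^ (-ρ) -
      (t : ℂ) ^ (1 - ρ) / (ρ - 1)) +
      ((((x : ℝ) / a : ℝ) : ℂ) ^ (1 - ρ) - ((t : ℝ) : ℂ) ^ (1 - ρ)) / (ρ - 1) := by
    rw [sum_Ioc_zero_sub _ hyt]
    rw [Complex.ofReal_natCast]
    ring
  rw [h5]
  refine (norm_add_le _ _).trans ?_
  refine (add_le_add (norm_sub_le _ _) le_rfl).trans ?_
  calc _ ≤ (3 / R + 3 / R + 1 / R : ℝ) := by gcongr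
    _ = 7 / R := by ring

/-- case 2 -/
theorem D_bound2 {X : ℕ → ℝ} (hX : CM X) {ρ : ℂ} (hρ : ‖ρ - 1‖ ≤ 1 / 2) (hρ1 : ρ ≠ 1) {R : ℕ}
    (hR : 0 < R) {T δ L : ℝ} (hT0 : 0 ≤ T)
    (hT : ∀ a : ℕ, 0 < a → a ≤ R * R → ‖(a : ℂ) ^ (-ρ)‖ ≤ T / a)
    (hT1 : ‖((R * R : ℕ) : ℂ) ^ (1 - ρ)‖ ≤ T) (hT2 : ‖((R * R * (R * R) : ℕ) : ℂ) ^ (1 - ρ)‖ ≤ T)
    (h1 : ∀ t, R * R ≤ t → ‖∑ b ∈ Ioc 0 t, (X b : ℂ) * (b : ℂ) ^ (-ρ)‖ ≤ δ)
    (h2 : |∑ b ∈ Ioc 0 (R * R), X b / b| ≤ L) :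
    ‖∑ n ∈ Ioc 0 (R * R * (R * R)), (fX X n : ℂ) * (n : ℂ) ^ (-ρ)‖ ≤
      T * (1 + Real.log (R * R)) * (δ + 7 / R) + T * (δ + L) / ‖ρ - 1‖ := by
  have hy : 0 < R * R := Nat.mul_pos hR hR
  set y := R * R with hydef
  set w : ℕ → ℂ := fun n => (n : ℂ) ^ (-ρ) with hwdef
  have hw : ∀ a b, 0 < a → 0 < b → w (a * b) = w a * w b := fun a b _ _ => w_mul ρ a b
  have hρ0 : 0 < ‖ρ - 1‖ := norm_pos_iff.2 (sub_ne_zero.2 hρ1)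
  have e0 : ∑ n ∈ Ioc 0 (y * y), (fX X n : ℂ) * (n : ℂ) ^ (-ρ) =
      ∑ n ∈ Ioc 0 (y * y), ∑ p ∈ n.divisorsAntidiagonal, ((X p.1 : ℂ) * w p.1) * w p.2 :=
    sum_congr rfl fun n _ => fX_w' hX hw n
  rw [e0, hyperbola (fun a => (X a : ℂ) * w a) w (y * y) hy, Nat.mul_div_cancel _ hy]
  have hdiv : ∀ a, 0 < a → a ≤ y → y ≤ y * y / a := by
    intro a ha ha'
    rw [Nat.le_div_iff_mul_le ha]
    exact Nat.mul_le_mul_left y ha'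
  have e1 := sum_norm_w_le hX hw hy hT0 hT
    (e := fun b => ∑ a ∈ Ioc 0 (y * y / b), (X a : ℂ) * w a) (δ := δ)
    (fun a ha ha' => h1 _ (hdiv a ha ha')) w (fun a _ => le_rfl)
  set E : ℕ → ℂ := fun a => ∑ b ∈ Ioc y (y * y / a), w b -
      ((y : ℂ) ^ (1 - ρ) - (((y * y : ℕ) : ℝ) / a : ℝ) ^ (1 - ρ)) / (ρ - 1) with hE
  have hEb : ∀ a, 0 < a → a ≤ y → ‖E a‖ ≤ 7 / R := by
    intro a ha ha'
    have := zsum_le hρ hρ1 hR (x := y * y) ha (Nat.mul_le_mul_left y ha')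
    exact this
  have e2 := sum_norm_w_le hX hw hy hT0 hT (e := E) (δ := 7 / R) hEb (fun b => (X b : ℂ) * w b)
    (fun a _ => norm_X_mul_le hX hw a)
  have e3 : ∑ a ∈ Ioc 0 y, ((X a : ℂ) * w a) * ∑ b ∈ Ioc y (y * y / a), w b =
      ∑ a ∈ Ioc 0 y, ((X a : ℂ) * w a) * E a +
        ((y : ℂ) ^ (1 - ρ) * ∑ a ∈ Ioc 0 y, (X a : ℂ) * w a -
          ((y * y : ℕ) : ℂ) ^ (1 - ρ) * ((∑ a ∈ Ioc 0 y, X a / a : ℝ) : ℂ)) / (ρ - 1) := by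
    rw [mul_sum]
    push_cast
    rw [mul_sum, ← sum_sub_distrib, sum_div, ← sum_add_distrib]
    refine sum_congr rfl fun a ha => ?_
    rw [mem_Ioc] at ha
    have ha0 : (0 : ℝ) < a := by exact_mod_cast ha.1
    have hac : (a : ℂ) ≠ 0 := by exact_mod_cast ha0.ne'
    have h5 : ((((y * y : ℕ) : ℝ) / a : ℝ) : ℂ) ^ (1 - ρ) * (a : ℂ) ^ (1 - ρ) =
        ((y * y : ℕ) : ℂ) ^ (1 - ρ) := by
      have h6 := Complex.mul_cpow_ofReal_nonneg (a := (((y * y : ℕ) : ℝ) / a)) (b := (a : ℝ))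
        (by positivity) ha0.le (1 - ρ)
      rw [Complex.ofReal_natCast] at h6
      rw [← h6]
      congr 1
      push_cast
      field_simp
    have h6 : (a : ℂ) ^ (1 - ρ) = a * w a := by
      rw [hwdef]
      dsimp only
      rw [sub_eq_add_neg, Complex.cpow_add _ _ hac, Complex.cpow_one]
    rw [← Nat.cast_mul, ← h5, h6, hE]
    dsimp only
    field_simp
    ring
  rw [e3]
  have e4 : ‖((y : ℂ) ^ (1 - ρ) * ∑ a ∈ Ioc 0 y, (X a : ℂ) * w a -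
          ((y * y : ℕ) : ℂ) ^ (1 - ρ) * ((∑ a ∈ Ioc 0 y, X a / a : ℝ) : ℂ)) / (ρ - 1)‖ ≤
      T * (δ + L) / ‖ρ - 1‖ := by
    rw [norm_div]
    refine div_le_div_of_nonneg_right ?_ hρ0.le
    refine (norm_sub_le _ _).trans ?_
    rw [norm_mul, norm_mul, Complex.norm_real, Real.norm_eq_abs, mul_add]
    have h5 := h1 y le_rfl
    exact add_le_add (mul_le_mul hT1 h5 (norm_nonneg _) hT0)
      (mul_le_mul hT2 h2 (abs_nonneg _) hT0)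
  have hlog : Real.log ((y : ℕ) : ℝ) = Real.log (R * R) := by rw [hydef]; push_cast; rfl
  rw [hlog] at e1 e2
  refine (norm_add_le _ _).trans ?_
  refine (add_le_add le_rfl (norm_add_le _ _)).trans ?_
  rw [mul_add]
  have := add_le_add e1 (add_le_add e2 e4)
  linarith

end Vale.Agent.P319.SC.QL.H272
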