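import Mathlib
import Vale.Agent.P319.SC.QL.H272.Rep3

/-! P319, block SC, QL2-R, part 4: the main inequality. -/

set_option linter.all false

namespace Vale.Agent.P319.SC.QL.H272

open Finset DirichletCharacter Vale.Agent.P319.Ev.IA Vale.Agent

theorem moll' {f g : ArithmeticFunction ℝ} (hfg : f * g = 1) (w : ℕ → ℂ) (hw1 : w 1 = 1)
    (hw : ∀ a b, 0 < a → 0 < b → w (a * b) = w a * w b) {N : ℕ} (hN : 0 < N) :
    (∑ a ∈ Ioc 0 N, (f a : ℂ) * w a) * (∑ b ∈ Ioc 0 N, (g b : ℂ) * w b) =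
      1 + ∑ p ∈ Ioc 0 N ×ˢ Ioc 0 N with ¬ p.1 * p.2 ≤ N,
        (f p.1 : ℂ) * (g p.2 : ℂ) * (w p.1 * w p.2) := by
  set f' : ArithmeticFunction ℂ := ⟨fun n => (f n : ℂ), by simp⟩ with hf'
  set g' : ArithmeticFunction ℂ := ⟨fun n => (g n : ℂ), by simp⟩ with hg'
  have h1 : f' * g' = 1 := by
    ext n
    have h2 : (f' * g') n = (((f * g) n : ℝ) : ℂ) := by
      rw [ArithmeticFunction.mul_apply, ArithmeticFunction.mul_apply]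
      push_cast
      rfl
    rw [h2, hfg, ArithmeticFunction.one_apply, ArithmeticFunction.one_apply]
    split_ifs <;> simp
  exact moll h1 w hw1 hw hN

/-- partial sums over an interval -/
theorem norm_partial_Ioc_le {r : ℕ} [NeZero r] {χ : DirichletCharacter ℂ r} (hχ : χ ≠ 1) {ρ : ℂ}
    (hρ : ‖ρ - 1‖ ≤ 1 / 2) {y s t : ℕ} (hy : 0 < y) (hs : y * y ≤ s) (hst : s ≤ t) :
    ‖∑ n ∈ Ioc s t, χ (n : ZMod r) * (n : ℂ) ^ (-ρ)‖ ≤ 12 * r / y := by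
  have hy0 : (0 : ℝ) < y := by exact_mod_cast hy
  have hre : 1 / 2 ≤ ρ.re := by
    have h1 := (abs_le.1 ((Complex.abs_re_le_norm _).trans hρ)).1
    rw [Complex.sub_re, Complex.one_re] at h1
    linarith
  have hn : ‖ρ‖ ≤ 3 / 2 := by
    have h1 := norm_le_norm_sub_add ρ 1
    rw [norm_one] at h1
    linarith
  have key : ∀ t, y * y ≤ t → ‖LFunction χ ρ - ∑ n ∈ Ioc 0 t, χ (n : ZMod r) * (n : ℂ) ^ (-ρ)‖ ≤
      6 * r / y := by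
    intro t ht
    have ht1 : 1 ≤ t := le_trans (Nat.mul_pos hy hy) ht
    have h2 := P013.J.lapprox r χ hχ ρ (by linarith) t ht1
    rw [← Ioc_zero_eq] at h2
    refine h2.trans ?_
    have h3 : (t : ℝ) ^ (-ρ.re) ≤ 1 / y := by
      have ht1' : (1 : ℝ) ≤ t := by exact_mod_cast ht1
      calc (t : ℝ) ^ (-ρ.re) ≤ (t : ℝ) ^ (-(1 / 2) : ℝ) :=
            Real.rpow_le_rpow_of_exponent_le ht1' (by linarith)
        _ ≤ ((y * y : ℕ) : ℝ) ^ (-(1 / 2) : ℝ) :=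
            Real.rpow_le_rpow_of_nonpos (by positivity) (by exact_mod_cast ht) (by norm_num)
        _ = 1 / y := by
            push_cast
            rw [Real.rpow_neg (by positivity), ← Real.sqrt_eq_rpow, Real.sqrt_mul_self hy0.le,
              one_div]
    have h4 : 2 * (r : ℝ) * ‖ρ‖ / ρ.re ≤ 6 * r := by
      rw [div_le_iff₀ (by linarith)]
      have : (0 : ℝ) ≤ r := Nat.cast_nonneg r
      nlinarith
    calc 2 * (r : ℝ) * ‖ρ‖ / ρ.re * (t : ℝ) ^ (-ρ.re) ≤ 6 * r * (1 / y) := by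
          gcongr
      _ = 6 * r / y := by ring
  rw [sum_Ioc_zero_sub _ hst]
  have h1 := key s hs
  have h2 := key t (hs.trans hst)
  have h3 : ∑ n ∈ Ioc 0 t, χ (n : ZMod r) * (n : ℂ) ^ (-ρ) -
      ∑ n ∈ Ioc 0 s, χ (n : ZMod r) * (n : ℂ) ^ (-ρ) =
      (LFunction χ ρ - ∑ n ∈ Ioc 0 s, χ (n : ZMod r) * (n : ℂ) ^ (-ρ)) -
      (LFunction χ ρ - ∑ n ∈ Ioc 0 t, χ (n : ZMod r) * (n : ℂ) ^ (-ρ)) := by ring
  rw [h3]
  refine (norm_sub_le _ _).trans ?_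
  calc _ ≤ (6 * r / y + 6 * r / y : ℝ) := add_le_add h1 h2
    _ = 12 * r / y := by ring

section
variable {r : ℕ} [NeZero r] {χ₁ χ : DirichletCharacter ℂ r} {ρ : ℂ} {R : ℕ} {T ε ℓ : ℝ}

/-- the case `χ = χ₁` -/
theorem case2 (h : χ₁ ^ 2 = 1) (h1 : χ₁ ≠ 1) (hρ2 : ‖ρ - 1‖ ≤ 1 / 2) (h0 : LFunction χ₁ ρ = 0)
    (hR0 : 0 < R) (hT0 : 0 ≤ T)
    (hwb : ∀ a : ℕ, 0 < a → a ≤ R * R → ‖(a : ℂ) ^ (-ρ)‖ ≤ T / a)
    (hT1 : ‖((R * R : ℕ) : ℂ) ^ (1 - ρ)‖ ≤ T) (hT2 : ‖((R * R * (R * R) : ℕ) : ℂ) ^ (1 - ρ)‖ ≤ T)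
    {K : ℝ} (hK : 1 ≤ K) (hK2 : 1 / K ≤ ‖ρ - 1‖) (hε : ‖LFunction χ₁ 1‖ + 20 / r ≤ ε)
    (hrR : (r : ℝ) / R ≤ 1 / r) (hR1 : (1 : ℝ) / R ≤ 1 / r) (hℓ : 1 ≤ ℓ)
    (hlogy : Real.log (R * R) = 8 * (ℓ - 1)) :
    ‖∑ n ∈ Ioc 0 (R * R * (R * R)), (fX (XX χ₁) n : ℂ) * (n : ℂ) ^ (-ρ)‖ ≤ 160 * (K * T * ℓ * ε) := by
  have hr0 : (0 : ℝ) < r := by exact_mod_cast Nat.pos_of_ne_zero (NeZero.ne r)
  have hR0' : (0 : ℝ) < R := by exact_mod_cast hR0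
  have hK0 : 0 < K := by linarith
  have hρ0 : 0 < ‖ρ - 1‖ := lt_of_lt_of_le (by positivity) hK2
  have hρ1 : ρ ≠ 1 := fun h2 => by rw [h2, sub_self, norm_zero] at hρ0; exact lt_irrefl _ hρ0
  have hLL0 : 0 ≤ ‖LFunction χ₁ 1‖ := norm_nonneg _
  have h7 : (20 : ℝ) / r = 20 * (1 / r) := by ring
  have h8 : (0 : ℝ) < 1 / r := by positivity
  have hε0 : 0 ≤ ε := by rw [h7] at hε; linarith
  have h2 := D_bound2 (X := XX χ₁) (XX_cm h) hρ2 hρ1 hR0 (T := T) (δ := 6 * r / R)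
    (L := ‖LFunction χ₁ 1‖ + 2 * r / (R * R : ℕ)) hT0 hwb hT1 hT2
    (fun t ht => by
      have h3 := norm_partial_le h1 hρ2 h0 hR0 ht
      simp only [XX_coe h]
      exact h3)
    (sum_XX_div_le h h1 (Nat.mul_pos hR0 hR0))
  refine h2.trans ?_
  rw [hlogy]
  have h6 : (6 : ℝ) * r / R = 6 * (r / R) := by ring
  have h9 : (7 : ℝ) / R = 7 * (1 / R) := by ring
  have h3 : T * (6 * r / R + (‖LFunction χ₁ 1‖ + 2 * r / (R * R : ℕ))) / ‖ρ - 1‖ ≤ T * (8 * ε) * K := by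
    rw [div_le_iff₀ hρ0]
    have h4 : (6 : ℝ) * r / R + (‖LFunction χ₁ 1‖ + 2 * r / (R * R : ℕ)) ≤ 8 * ε := by
      have h5 : (2 : ℝ) * r / (R * R : ℕ) ≤ 2 * (r / R) := by
        push_cast
        rw [mul_div_assoc]
        have hR1' : (1 : ℝ) ≤ R := by exact_mod_cast hR0
        have : (r : ℝ) / (R * R) ≤ r / R := by
          apply div_le_div_of_nonneg_left hr0.le hR0'
          nlinarith
        linarith
      rw [h7] at hε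
      rw [h6]
      linarith
    have h5 : 1 ≤ K * ‖ρ - 1‖ := by
      rw [div_le_iff₀ hK0] at hK2
      linarith
    calc T * (6 * r / R + (‖LFunction χ₁ 1‖ + 2 * r / (R * R : ℕ))) ≤ T * (8 * ε) := by gcongr
      _ ≤ T * (8 * ε) * (K * ‖ρ - 1‖) := le_mul_of_one_le_right (by positivity) h5
      _ = T * (8 * ε) * K * ‖ρ - 1‖ := by ring
  have h4 : T * (1 + 8 * (ℓ - 1)) * (6 * r / R + 7 / R) ≤ T * (8 * ℓ) * ε := by
    have h5 : (6 : ℝ) * r / R + 7 / R ≤ ε := by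
      rw [h7] at hε
      rw [h6, h9]
      linarith
    have h6 : 1 + 8 * (ℓ - 1) ≤ 8 * ℓ := by linarith
    have h7 : 0 ≤ 1 + 8 * (ℓ - 1) := by linarith
    gcongr
  refine (add_le_add h4 h3).trans ?_
  have h5 : T * (8 * ℓ) * ε ≤ 8 * (K * T * ℓ * ε) := by
    have : T * (8 * ℓ) * ε = 1 * (8 * (T * ℓ * ε)) := by ring
    rw [this]
    have h6 : 0 ≤ 8 * (T * ℓ * ε) := by positivity
    calc 1 * (8 * (T * ℓ * ε)) ≤ K * (8 * (T * ℓ * ε)) := by gcongr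
      _ = _ := by ring
  have h6 : T * (8 * ε) * K ≤ 8 * (K * T * ℓ * ε) := by
    have h7 : 0 ≤ 8 * (K * T * ε) := by positivity
    calc T * (8 * ε) * K = 1 * (8 * (K * T * ε)) := by ring
      _ ≤ ℓ * (8 * (K * T * ε)) := by gcongr
      _ = _ := by ring
  have h7 : 0 ≤ K * T * ℓ * ε := by positivity
  linarith

/-- the case `χ ≠ χ₁` -/
theorem case1 (h : χ₁ ^ 2 = 1) (hχ : χ ≠ 1) (hcc : χ ≠ χ₁) (hρ2 : ‖ρ - 1‖ ≤ 1 / 2)
    (h0 : LFunction χ ρ = 0) (hR0 : 0 < R) (hT0 : 0 ≤ T)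
    (hwb : ∀ a : ℕ, 0 < a → a ≤ R * R → ‖(a : ℂ) ^ (-ρ)‖ ≤ T / a)
    (hε : ‖LFunction χ₁ 1‖ + 20 / r ≤ ε)
    (hrR : (r : ℝ) / R ≤ 1 / r) (hℓ : 1 ≤ ℓ)
    (hlogy : Real.log (R * R) = 8 * (ℓ - 1)) :
    ‖∑ n ∈ Ioc 0 (R * R * (R * R)), (fX (XX χ₁) n : ℂ) * (χ (n : ZMod r) * (n : ℂ) ^ (-ρ))‖ ≤
      160 * (T * ℓ * ε) := by
  have hr0 : (0 : ℝ) < r := by exact_mod_cast Nat.pos_of_ne_zero (NeZero.ne r)
  have hR0' : (0 : ℝ) < R := by exact_mod_cast hR0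
  have hLL0 : 0 ≤ ‖LFunction χ₁ 1‖ := norm_nonneg _
  have h7 : (20 : ℝ) / r = 20 * (1 / r) := by ring
  have h8 : (0 : ℝ) < 1 / r := by positivity
  have hε0 : 0 ≤ ε := by rw [h7] at hε; linarith
  have hne : χ * χ₁ ≠ 1 := by
    intro h2
    apply hcc
    have h3 : χ₁ * χ₁ = 1 := by rw [← pow_two]; exact h
    calc χ = χ * (χ₁ * χ₁) := by rw [h3, mul_one]
      _ = (χ * χ₁) * χ₁ := by rw [mul_assoc]
      _ = χ₁ := by rw [h2, one_mul]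
  have h2 := D_bound (X := XX χ₁) (XX_cm h) (w := fun n => χ (n : ZMod r) * (n : ℂ) ^ (-ρ))
    (fun a b _ _ => by
      beta_reduce
      rw [w_mul, Nat.cast_mul, map_mul]
      ring)
    (y := R * R) (Nat.mul_pos hR0 hR0) (T := T) (δ := 6 * r / R) (δ' := 12 * r / R) hT0
    (fun n hn hn' => by
      beta_reduce
      rw [norm_mul]
      have h2 := χ.norm_le_one (n : ZMod r)
      have h3 := hwb n hn hn'
      nlinarith [norm_nonneg ((n : ℂ) ^ (-ρ))])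
    (fun t ht => norm_partial_le hχ hρ2 h0 hR0 ht)
    (fun t ht => by
      have h3 := norm_partial_Ioc_le hne hρ2 hR0 le_rfl ht
      refine le_trans (le_of_eq ?_) h3
      congr 1
      refine sum_congr rfl fun n _ => ?_
      rw [XX_coe h, MulChar.mul_apply]
      ring)
  refine h2.trans ?_
  have h2' : Real.log ((R * R : ℕ) : ℝ) = 8 * (ℓ - 1) := by push_cast; exact hlogy
  rw [h2']
  have h5 : (6 : ℝ) * r / R + 12 * r / R ≤ ε := by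
    have h6 : (6 : ℝ) * r / R + 12 * r / R = 18 * (r / R) := by ring
    rw [h7] at hε
    rw [h6]
    linarith
  have h6 : 1 + 8 * (ℓ - 1) ≤ 8 * ℓ := by linarith
  have h7 : 0 ≤ 1 + 8 * (ℓ - 1) := by linarith
  have h9 : 0 ≤ T * ℓ * ε := by positivity
  calc T * (1 + 8 * (ℓ - 1)) * (6 * r / R + 12 * r / R) ≤ T * (8 * ℓ) * ε := by gcongr
    _ = 8 * (T * ℓ * ε) := by ring
    _ ≤ 160 * (T * ℓ * ε) := by linarith

/-- the mollifier argument -/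
theorem finish (h : χ₁ ^ 2 = 1) (h1 : χ₁ ≠ 1) (hr : 2 ≤ r) (hR : R = r ^ 4) {w : ℕ → ℂ}
    (hw1 : w 1 = 1) (hw : ∀ a b, 0 < a → 0 < b → w (a * b) = w a * w b) (hT1 : 1 ≤ T)
    (hwn : ∀ n : ℕ, 0 < n → n ≤ R * R * (R * R) * (R * R * (R * R)) → ‖w n‖ ≤ T / n) {K : ℝ}
    (hK : 1 ≤ K) (hε : ‖LFunction χ₁ 1‖ + 20 / r ≤ ε) (hR1 : (1 : ℝ) / R ≤ 1 / r) (hℓ1 : 1 ≤ ℓ)
    (hlogN : Real.log ((R * R * (R * R) : ℕ) : ℝ) = 16 * (ℓ - 1))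
    (hD : ‖∑ n ∈ Ioc 0 (R * R * (R * R)), (fX (XX χ₁) n : ℂ) * w n‖ ≤ 160 * (K * T * ℓ * ε)) :
    1 ≤ 10 ^ 6 * (K * T ^ 2 * ℓ ^ 5 * ε) := by
  have hXc := XX_cm h
  have hr0 : (0 : ℝ) < r := by exact_mod_cast (by omega : 0 < r)
  have hR0 : 0 < R := by rw [hR]; exact pow_pos (by omega) 4
  have hR0' : (0 : ℝ) < R := by exact_mod_cast hR0
  have hT0 : 0 ≤ T := by linarith
  have hLL0 : 0 ≤ ‖LFunction χ₁ 1‖ := norm_nonneg _
  have h7 : (20 : ℝ) / r = 20 * (1 / r) := by ring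
  have h8 : (0 : ℝ) < 1 / r := by positivity
  have hε0 : 0 ≤ ε := by rw [h7] at hε; linarith
  generalize hN : R * R * (R * R) = N at *
  have hN0 : 0 < N := by rw [← hN]; exact Nat.mul_pos (Nat.mul_pos hR0 hR0) (Nat.mul_pos hR0 hR0)
  have hNN : N ≤ N * N := Nat.le_mul_of_pos_left N hN0
  have hmo := moll' (fX_mul_gX hXc) w hw1 hw hN0
  set D := ∑ a ∈ Ioc 0 N, (fX (XX χ₁) a : ℂ) * w a with hDdef
  set G := ∑ b ∈ Ioc 0 N, (gX (XX χ₁) b : ℂ) * w b with hGdef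
  set S := ∑ p ∈ Ioc 0 N ×ˢ Ioc 0 N with ¬ p.1 * p.2 ≤ N,
        (fX (XX χ₁) p.1 : ℂ) * (gX (XX χ₁) p.2 : ℂ) * (w p.1 * w p.2) with hSdef
  set H := ∑ n ∈ Ioc 0 N, fX (XX χ₁) n / n with hHdef
  set E := ∑ n ∈ Ioc R N, fX (XX χ₁) n / n with hEdef
  have hH : H ≤ (16 * ℓ) ^ 2 := by
    have h2 := sum_fX_div_le hXc N hN0
    rw [hlogN] at h2
    refine h2.trans ?_
    have h3 : 1 + 16 * (ℓ - 1) ≤ 16 * ℓ := by linarith
    have h4 : 0 ≤ 1 + 16 * (ℓ - 1) := by linarith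
    gcongr
  have hH0 : 0 ≤ H := sum_nonneg fun n _ => div_nonneg (fX_nonneg hXc n) (Nat.cast_nonneg n)
  have hE0 : 0 ≤ E := sum_nonneg fun n _ => div_nonneg (fX_nonneg hXc n) (Nat.cast_nonneg n)
  have hE : E ≤ ε * (18 * ℓ) := by
    have hRN : R ≤ N := by
      rw [← hN, mul_assoc]
      exact Nat.le_mul_of_pos_right R (Nat.mul_pos hR0 (Nat.mul_pos hR0 hR0))
    have h2 := sum_Ioc_fX_div_le hXc (R := R) (N := N) hR0 hRN
      (ε := ε) (fun n hn => by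
        refine (sum_fX_le h h1 hr (by rw [← hR]; exact hn)).trans ?_
        have h3 : ‖LFunction χ₁ 1‖ + 5 / r ≤ ε := by
          have : (5 : ℝ) / r ≤ 20 / r := by gcongr; norm_num
          linarith
        gcongr)
    rw [hlogN] at h2
    refine h2.trans ?_
    have h3 : 2 + 16 * (ℓ - 1) ≤ 18 * ℓ := by linarith
    gcongr
  have hG : ‖G‖ ≤ T * (2 * H) := by
    have h2 : ∀ b ∈ Ioc 0 N, ‖(gX (XX χ₁) b : ℂ) * w b‖ ≤ T * (|gX (XX χ₁) b| / b) := by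
      intro b hb
      rw [mem_Ioc] at hb
      rw [norm_mul, Complex.norm_real, Real.norm_eq_abs]
      have h3 := hwn b hb.1 (hb.2.trans hNN)
      calc |gX (XX χ₁) b| * ‖w b‖ ≤ |gX (XX χ₁) b| * (T / b) := by gcongr
        _ = T * (|gX (XX χ₁) b| / b) := by ring
    refine (norm_sum_le_of_le _ h2).trans ?_
    rw [← mul_sum]
    exact mul_le_mul_of_nonneg_left (sum_gX_div_le hXc N hN0) hT0
  have hS : ‖S‖ ≤ T * (4 * E * H + H ^ 2 / R) := by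
    have h2 : ∀ p ∈ (Ioc 0 N ×ˢ Ioc 0 N).filter (fun p => ¬ p.1 * p.2 ≤ N),
        ‖(fX (XX χ₁) p.1 : ℂ) * (gX (XX χ₁) p.2 : ℂ) * (w p.1 * w p.2)‖ ≤
          T * (fX (XX χ₁) p.1 * |gX (XX χ₁) p.2| / (p.1 * p.2)) := by
      intro p hp
      rw [mem_filter, mem_product, mem_Ioc, mem_Ioc] at hp
      obtain ⟨⟨hp1, hp2⟩, -⟩ := hp
      rw [← hw _ _ hp1.1 hp2.1, norm_mul, norm_mul, Complex.norm_real, Complex.norm_real,
        Real.norm_eq_abs, Real.norm_eq_abs, abs_of_nonneg (fX_nonneg hXc _)]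
      have h3 := hwn (p.1 * p.2) (Nat.mul_pos hp1.1 hp2.1) (Nat.mul_le_mul hp1.2 hp2.2)
      have h4 := fX_nonneg hXc p.1
      push_cast at h3
      calc fX (XX χ₁) p.1 * |gX (XX χ₁) p.2| * ‖w (p.1 * p.2)‖ ≤
            fX (XX χ₁) p.1 * |gX (XX χ₁) p.2| * (T / (p.1 * p.2)) := by gcongr
        _ = _ := by ring
    refine (norm_sum_le_of_le _ h2).trans ?_
    rw [← mul_sum]
    exact mul_le_mul_of_nonneg_left (tail_le hXc hR0 hN.le) hT0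
  have hfin : 1 ≤ ‖D‖ * ‖G‖ + ‖S‖ := by
    have h2 : (1 : ℂ) = D * G - S := by rw [hmo]; ring
    calc (1 : ℝ) = ‖(1 : ℂ)‖ := norm_one.symm
      _ = ‖D * G - S‖ := by rw [← h2]
      _ ≤ ‖D * G‖ + ‖S‖ := norm_sub_le _ _
      _ = ‖D‖ * ‖G‖ + ‖S‖ := by rw [norm_mul]
  have b1 : ‖D‖ * ‖G‖ ≤ (160 * (K * T * ℓ * ε)) * (T * (2 * (16 * ℓ) ^ 2)) := by
    have : ‖G‖ ≤ T * (2 * (16 * ℓ) ^ 2) := hG.trans (by gcongr)
    gcongr
  have b2 : ‖S‖ ≤ T * (4 * (ε * (18 * ℓ)) * (16 * ℓ) ^ 2 + ((16 * ℓ) ^ 2) ^ 2 * ε) := by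
    refine hS.trans ?_
    have h2 : H ^ 2 / R ≤ ((16 * ℓ) ^ 2) ^ 2 * ε := by
      have h3 : (1 : ℝ) / R ≤ ε := by
        rw [h7] at hε
        linarith
      calc H ^ 2 / R = H ^ 2 * (1 / R) := by ring
        _ ≤ ((16 * ℓ) ^ 2) ^ 2 * ε := by gcongr
    gcongr
  have b3 : (160 * (K * T * ℓ * ε)) * (T * (2 * (16 * ℓ) ^ 2)) = 81920 * (K * T ^ 2 * ℓ ^ 3 * ε) := by
    ring
  have b4 : T * (4 * (ε * (18 * ℓ)) * (16 * ℓ) ^ 2 + ((16 * ℓ) ^ 2) ^ 2 * ε) =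
      18432 * (T * ℓ ^ 3 * ε) + 65536 * (T * ℓ ^ 4 * ε) := by ring
  have hTK : T ≤ K * T ^ 2 := by nlinarith
  have c1 : K * T ^ 2 * ℓ ^ 3 * ε ≤ K * T ^ 2 * ℓ ^ 5 * ε := by
    have : ℓ ^ 3 ≤ ℓ ^ 5 := pow_le_pow_right₀ hℓ1 (by norm_num)
    gcongr
  have c2 : T * ℓ ^ 3 * ε ≤ K * T ^ 2 * ℓ ^ 5 * ε := by
    have h2 : ℓ ^ 3 ≤ ℓ ^ 5 := pow_le_pow_right₀ hℓ1 (by norm_num)
    gcongr
  have c3 : T * ℓ ^ 4 * ε ≤ K * T ^ 2 * ℓ ^ 5 * ε := by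
    have h2 : ℓ ^ 4 ≤ ℓ ^ 5 := pow_le_pow_right₀ hℓ1 (by norm_num)
    gcongr
  have c4 : 0 ≤ K * T ^ 2 * ℓ ^ 5 * ε := by positivity
  rw [b3] at b1
  rw [b4] at b2
  linarith

theorem main_ineq (hr : 2 ≤ r) (h : χ₁ ^ 2 = 1)
    (h1 : χ₁ ≠ 1) (hχ : χ ≠ 1) {η : ℝ} (hη : η ≤ 1 / 2) (hρ : ‖ρ - 1‖ ≤ η)
    (h0 : LFunction χ ρ = 0) {K : ℝ} (hK : 1 ≤ K) (hcase : χ ≠ χ₁ ∨ 1 / K ≤ ‖ρ - 1‖) :
    1 ≤ 10 ^ 6 * (K * Real.exp (η * (32 * Real.log r)) ^ 2 * LL r ^ 5 *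
      (‖LFunction χ₁ 1‖ + 20 / r)) := by
  have hr0 : (0 : ℝ) < r := by exact_mod_cast (by omega : 0 < r)
  have hr2 : (2 : ℝ) ≤ r := by exact_mod_cast hr
  have hη0 : 0 ≤ η := (norm_nonneg _).trans hρ
  have hρ2 : ‖ρ - 1‖ ≤ 1 / 2 := hρ.trans hη
  have hT1 : 1 ≤ Real.exp (η * (32 * Real.log r)) := by
    apply Real.one_le_exp
    have := Real.log_natCast_nonneg r
    positivity
  have hlogr : Real.log r = LL r - 1 := by rw [LL]; ring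
  have hℓ1 : 1 ≤ LL r := one_le_LL (by omega)
  obtain ⟨R, hR⟩ : ∃ R, R = r ^ 4 := ⟨_, rfl⟩
  have hR0 : 0 < R := by rw [hR]; exact pow_pos (by omega) 4
  have hR0' : (0 : ℝ) < R := by exact_mod_cast hR0
  have hRr : (R : ℝ) = r ^ 4 := by rw [hR]; push_cast; rfl
  have hN0 : 0 < R * R * (R * R) := Nat.mul_pos (Nat.mul_pos hR0 hR0) (Nat.mul_pos hR0 hR0)
  have hlog : ∀ n : ℕ, 0 < n → n ≤ R * R * (R * R) * (R * R * (R * R)) →
      Real.log n ≤ 32 * Real.log r := by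
    intro n hn0 hn
    have h2 : (n : ℝ) ≤ (r : ℝ) ^ 32 := by
      have h3 : R * R * (R * R) * (R * R * (R * R)) = r ^ 32 := by rw [hR]; ring
      rw [h3] at hn
      exact_mod_cast hn
    have h3 := Real.log_le_log (by exact_mod_cast hn0) h2
    rw [Real.log_pow] at h3
    exact_mod_cast h3
  have hNN : R * R * (R * R) ≤ R * R * (R * R) * (R * R * (R * R)) :=
    Nat.le_mul_of_pos_left _ hN0
  have hRRN : R * R ≤ R * R * (R * R) := Nat.le_mul_of_pos_left _ (Nat.mul_pos hR0 hR0)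
  have hwb : ∀ n : ℕ, 0 < n → n ≤ R * R * (R * R) * (R * R * (R * R)) →
      ‖(n : ℂ) ^ (-ρ)‖ ≤ Real.exp (η * (32 * Real.log r)) / n := fun n hn0 hn =>
    norm_w_le hn0 hη0 hρ (hlog n hn0 hn)
  have hlogN : Real.log ((R * R * (R * R) : ℕ) : ℝ) = 16 * (LL r - 1) := by
    have : ((R * R * (R * R) : ℕ) : ℝ) = (r : ℝ) ^ 16 := by push_cast; rw [hRr]; ring
    rw [this, Real.log_pow, hlogr]; push_cast; ring
  have hlogy : Real.log (R * R) = 8 * (LL r - 1) := by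
    rw [hRr, ← pow_add, Real.log_pow, hlogr]; push_cast; ring
  have hrR : (r : ℝ) / R ≤ 1 / r := by
    rw [hRr, div_le_div_iff₀ (by positivity) hr0, one_mul, ← pow_two]
    exact pow_le_pow_right₀ (by linarith) (by norm_num)
  have hR1 : (1 : ℝ) / R ≤ 1 / r := by
    refine le_trans ?_ hrR
    rw [div_le_div_iff_of_pos_right hR0']
    linarith
  have hK0 : 0 < K := by linarith
  by_cases hcc : χ = χ₁
  · have hK2 : 1 / K ≤ ‖ρ - 1‖ := by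
      rcases hcase with h2 | h2
      · exact absurd hcc h2
      · exact h2
    rw [hcc] at h0
    have hD := case2 (χ₁ := χ₁) (ρ := ρ) (R := R) h h1 hρ2 h0 hR0 (by linarith)
      (fun a ha ha' => hwb a ha (ha'.trans (hRRN.trans hNN)))
      (norm_one_sub_cpow_le (Nat.mul_pos hR0 hR0) hη0 hρ
        (hlog _ (Nat.mul_pos hR0 hR0) (hRRN.trans hNN)))
      (norm_one_sub_cpow_le hN0 hη0 hρ (hlog _ hN0 hNN)) hK hK2 le_rfl hrR hR1 hℓ1 hlogy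
    exact finish h h1 hr hR (w := fun n => (n : ℂ) ^ (-ρ)) (by simp) (fun a b _ _ => w_mul ρ a b)
      hT1 hwb hK le_rfl hR1 hℓ1 hlogN hD
  · have hD := case1 (χ₁ := χ₁) (ρ := ρ) (R := R) h hχ hcc hρ2 h0 hR0 (by linarith)
      (fun a ha ha' => hwb a ha (ha'.trans (hRRN.trans hNN))) le_rfl hrR hℓ1 hlogy
    refine finish h h1 hr hR (w := fun n => χ (n : ZMod r) * (n : ℂ) ^ (-ρ)) (by simp)
      (fun a b _ _ => ?_) hT1 (fun n hn hn' => ?_) hK le_rfl hR1 hℓ1 hlogN (hD.trans ?_)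
    · beta_reduce
      rw [w_mul, Nat.cast_mul, map_mul]
      ring
    · beta_reduce
      rw [norm_mul]
      have h2 := χ.norm_le_one (n : ZMod r)
      have h3 := hwb n hn hn'
      nlinarith [norm_nonneg ((n : ℂ) ^ (-ρ))]
    · have h3 : 0 ≤ Real.exp (η * (32 * Real.log r)) * LL r * (‖LFunction χ₁ 1‖ + 20 / r) := by
        positivity
      nlinarith

end

end Vale.Agent.P319.SC.QL.H272
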