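import Mathlib
import Vale.Agent.P319.SC.QL.H272.Rep4
import Vale.Agent.P319.SC.QL.QIface

/-! P319, block SC, QL2-R: repulsion. -/

set_option linter.all false

namespace Vale.Agent.P319.SC.QL.H272

open Finset DirichletCharacter Vale.Agent.P319.Ev.IA Vale.Agent Filter Topology

/-- the size of `L` very near `1` -/
theorem norm_L_near {r : ℕ} [NeZero r] {χ : DirichletCharacter ℂ r} (hχ : χ ≠ 1) (hr : 2 ≤ LL r)
    {s : ℂ} (hs : ‖s - 1‖ ≤ 1 / LL r) : ‖LFunction χ s‖ ≤ 12 * LL r := by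
  have hrp : 0 < r := Nat.pos_of_ne_zero (NeZero.ne r)
  have hr0 : (0 : ℝ) < r := by exact_mod_cast hrp
  have hs2 : ‖s - 1‖ ≤ 1 / 2 := hs.trans (by gcongr)
  have hre : 1 / 2 ≤ s.re := by
    have h1 := (abs_le.1 ((Complex.abs_re_le_norm _).trans hs2)).1
    rw [Complex.sub_re, Complex.one_re] at h1
    linarith
  have hn : ‖s‖ ≤ 3 / 2 := by
    have h1 := norm_le_norm_sub_add s 1
    rw [norm_one] at h1
    linarith
  have hlogr : Real.log r = LL r - 1 := by rw [LL]; ring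
  have he : Real.exp (1 / LL r * Real.log r) ≤ 3 := by
    have h1 : 1 / LL r * Real.log r ≤ 1 := by
      rw [one_div, inv_mul_le_iff₀ (by linarith), hlogr]
      linarith
    have h2 := Real.exp_one_lt_d9
    have h3 := Real.exp_le_exp.2 h1
    linarith
  have hw : ∀ n : ℕ, 0 < n → n ≤ r → ‖(n : ℂ) ^ (-s)‖ ≤ 3 / n := by
    intro n hn0 hnr
    refine (norm_w_le (M := Real.log r) hn0 (by positivity) hs (Real.log_le_log
      (by exact_mod_cast hn0) (by exact_mod_cast hnr))).trans ?_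
    gcongr
  have h1 := P013.J.lapprox r χ hχ s (by linarith) r hrp
  have h2 : ‖∑ n ∈ Icc 1 r, χ (n : ZMod r) * (n : ℂ) ^ (-s)‖ ≤ 3 * LL r := by
    rw [← Ioc_zero_eq]
    have h3 : ∀ n ∈ Ioc 0 r, ‖χ (n : ZMod r) * (n : ℂ) ^ (-s)‖ ≤ 3 * (1 / n) := by
      intro n hn
      rw [mem_Ioc] at hn
      rw [norm_mul]
      have h4 := χ.norm_le_one (n : ZMod r)
      have h5 := hw n hn.1 hn.2
      have h6 : (3 : ℝ) * (1 / n) = 3 / n := by ring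
      rw [h6]
      nlinarith [norm_nonneg ((n : ℂ) ^ (-s))]
    refine (norm_sum_le_of_le _ h3).trans ?_
    rw [← mul_sum]
    have h4 := harm_le r hrp
    rw [LL]
    gcongr
  have h3 : 2 * (r : ℝ) * ‖s‖ / s.re * (r : ℝ) ^ (-s.re) ≤ 18 := by
    have h4 := hw r hrp le_rfl
    rw [norm_cpow_neg hrp] at h4
    have h5 : 2 * (r : ℝ) * ‖s‖ / s.re ≤ 6 * r := by
      rw [div_le_iff₀ (by linarith)]
      nlinarith
    calc 2 * (r : ℝ) * ‖s‖ / s.re * (r : ℝ) ^ (-s.re) ≤ 6 * r * (3 / r) := by gcongr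
      _ = 18 := by field_simp; norm_num
  have h4 := norm_le_norm_sub_add (LFunction χ s) (∑ n ∈ Icc 1 r, χ (n : ZMod r) * (n : ℂ) ^ (-s))
  linarith

/-- a zero very near `1` makes `L(1)` very small -/
theorem norm_L_one_le {r : ℕ} [NeZero r] {χ : DirichletCharacter ℂ r} (hχ : χ ≠ 1) (hr : 2 ≤ LL r)
    {β : ℂ} (hβ : ‖β - 1‖ < 1 / LL r) (h0 : LFunction χ β = 0) :
    ‖LFunction χ 1‖ ≤ 24 * LL r ^ 2 * ‖β - 1‖ := by
  have hL0 : 0 < LL r := by linarith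
  have h1 := Complex.dist_le_div_mul_dist_of_mapsTo_ball (f := LFunction χ) (c := 1) (z := β)
    (R₁ := 1 / LL r) (R₂ := 24 * LL r) (differentiable_LFunction hχ).differentiableOn
    (fun s hs => by
      rw [Metric.mem_ball, dist_eq_norm] at hs
      rw [Metric.mem_closedBall, dist_eq_norm]
      have h2 := norm_L_near hχ hr hs.le
      have h3 := norm_L_near (s := 1) hχ hr (by rw [sub_self, norm_zero]; positivity)
      refine (norm_sub_le _ _).trans ?_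
      linarith) (by rw [Metric.mem_ball, dist_eq_norm]; exact hβ)
  rw [h0, dist_zero_left, dist_eq_norm] at h1
  refine h1.trans (le_of_eq ?_)
  field_simp

/-- the logarithm is small -/
theorem one_add_log_le {x : ℝ} (hx : 1 ≤ x) : 1 + Real.log x ≤ 5 * x ^ (1 / 4 : ℝ) := by
  have h1 := Real.log_le_rpow_div (x := x) (by linarith) (ε := 1 / 4) (by norm_num)
  have h2 : 1 ≤ x ^ (1 / 4 : ℝ) := Real.one_le_rpow hx (by norm_num)
  have h3 : x ^ (1 / 4 : ℝ) / (1 / 4) = 4 * x ^ (1 / 4 : ℝ) := by ring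
  rw [h3] at h1
  linarith

/-- for large `ℓ` everything is small -/
theorem large (A c κ : ℝ) (hA : 0 < A) (hc : 0 < c) (hκ : 0 < κ) : ∀ᶠ ℓ : ℝ in atTop,
    2 ≤ ℓ ∧ A * (1 + Real.log ℓ) / ℓ ≤ 1 / 2 ∧
      Real.exp (-(c * ℓ / (1 + Real.log ℓ) ^ 2)) < 1 / ℓ ∧
      10 ^ 6 * ((1 + ℓ / κ) * Real.exp (64 * A * (1 + Real.log ℓ)) * ℓ ^ 5 *
        (24 * ℓ ^ 2 * Real.exp (-(c * ℓ / (1 + Real.log ℓ) ^ 2)) + 20 * Real.exp (1 - ℓ))) < 1 := by
  set c' : ℝ := min (c / 25) 1 with hc'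
  have hc'0 : 0 < c' := by rw [hc']; positivity
  set B : ℝ := 64 * A + 8 with hB
  set C : ℝ := 10 ^ 6 * ((1 + 1 / κ) * Real.exp (64 * A) * 84) with hC
  have hC0 : 0 < C := by rw [hC]; positivity
  have hC1 : 1 ≤ C := by
    have h1 : (1 : ℝ) ≤ 1 + 1 / κ := by
      have : 0 < 1 / κ := by positivity
      linarith
    have h2 : (1 : ℝ) ≤ Real.exp (64 * A) := Real.one_le_exp (by positivity)
    rw [hC]
    nlinarith [mul_le_mul h1 h2 zero_le_one (by linarith)]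
  have hlim : Tendsto (fun ℓ : ℝ => C * ((ℓ ^ (1 / 2 : ℝ)) ^ (2 * B) *
      Real.exp (-c' * ℓ ^ (1 / 2 : ℝ)))) atTop (𝓝 0) := by
    have h1 := ((tendsto_rpow_mul_exp_neg_mul_atTop_nhds_zero (2 * B) c' hc'0).comp
      (tendsto_rpow_atTop (show (0 : ℝ) < 1 / 2 by norm_num))).const_mul C
    simpa using h1
  have hlim2 : Tendsto (fun ℓ : ℝ => ℓ ^ (3 / 4 : ℝ)) atTop atTop :=
    tendsto_rpow_atTop (by norm_num)
  filter_upwards [hlim.eventually (gt_mem_nhds zero_lt_one), eventually_ge_atTop (2 : ℝ),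
    hlim2.eventually_ge_atTop (10 * A)] with ℓ h1 h2 h3
  have hℓ0 : 0 < ℓ := by linarith
  have hℓ1 : 1 ≤ ℓ := by linarith
  have hlog := one_add_log_le hℓ1
  have hlog0 : 0 ≤ Real.log ℓ := Real.log_nonneg hℓ1
  have e2 : (ℓ ^ (1 / 2 : ℝ)) ^ (2 * B) = ℓ ^ B := by
    rw [← Real.rpow_mul hℓ0.le]
    congr 1
    ring
  rw [e2] at h1
  -- the exponentials
  have e3 : Real.exp (-(c * ℓ / (1 + Real.log ℓ) ^ 2)) ≤ Real.exp (-c' * ℓ ^ (1 / 2 : ℝ)) := by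
    apply Real.exp_le_exp.2
    rw [neg_mul]
    apply neg_le_neg
    rw [le_div_iff₀ (by positivity)]
    have h4 : (1 + Real.log ℓ) ^ 2 ≤ 25 * ℓ ^ (1 / 2 : ℝ) := by
      calc (1 + Real.log ℓ) ^ 2 ≤ (5 * ℓ ^ (1 / 4 : ℝ)) ^ 2 := by gcongr
        _ = 25 * (ℓ ^ (1 / 4 : ℝ) * ℓ ^ (1 / 4 : ℝ)) := by ring
        _ = 25 * ℓ ^ (1 / 2 : ℝ) := by
            rw [← Real.rpow_add hℓ0]
            norm_num
    have h5 : ℓ ^ (1 / 2 : ℝ) * ℓ ^ (1 / 2 : ℝ) = ℓ := by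
      rw [← Real.rpow_add hℓ0]
      norm_num
    calc c' * ℓ ^ (1 / 2 : ℝ) * (1 + Real.log ℓ) ^ 2 ≤
          (c / 25) * ℓ ^ (1 / 2 : ℝ) * (25 * ℓ ^ (1 / 2 : ℝ)) := by
            gcongr
            exact min_le_left _ _
      _ = c * (ℓ ^ (1 / 2 : ℝ) * ℓ ^ (1 / 2 : ℝ)) := by ring
      _ = c * ℓ := by rw [h5]
  have e4 : Real.exp (1 - ℓ) ≤ 3 * Real.exp (-c' * ℓ ^ (1 / 2 : ℝ)) := by
    have h4 : ℓ ^ (1 / 2 : ℝ) ≤ ℓ := by
      calc ℓ ^ (1 / 2 : ℝ) ≤ ℓ ^ (1 : ℝ) := Real.rpow_le_rpow_of_exponent_le hℓ1 (by norm_num)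
        _ = ℓ := Real.rpow_one ℓ
    have h5 : 0 ≤ ℓ ^ (1 / 2 : ℝ) := by positivity
    have h6 : c' * ℓ ^ (1 / 2 : ℝ) ≤ ℓ := by
      calc c' * ℓ ^ (1 / 2 : ℝ) ≤ 1 * ℓ := by
            gcongr
            exact min_le_right _ _
        _ = ℓ := one_mul _
    have h7 : Real.exp (1 - ℓ) = Real.exp 1 * Real.exp (-ℓ) := by
      rw [← Real.exp_add]; congr 1
    rw [h7]
    have h8 : Real.exp 1 ≤ 3 := by have := Real.exp_one_lt_d9; linarith
    have h9 : Real.exp (-ℓ) ≤ Real.exp (-c' * ℓ ^ (1 / 2 : ℝ)) := Real.exp_le_exp.2 (by linarith)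
    gcongr
  set e := Real.exp (-c' * ℓ ^ (1 / 2 : ℝ)) with he
  have he0 : 0 < e := Real.exp_pos _
  refine ⟨h2, ?_, ?_, ?_⟩
  · rw [div_le_iff₀ hℓ0]
    have h4 : ℓ ^ (1 / 4 : ℝ) * ℓ ^ (3 / 4 : ℝ) = ℓ := by
      rw [← Real.rpow_add hℓ0]
      norm_num
    have h5 : 0 < ℓ ^ (1 / 4 : ℝ) := by positivity
    calc A * (1 + Real.log ℓ) ≤ A * (5 * ℓ ^ (1 / 4 : ℝ)) := by gcongr
      _ = 1 / 2 * (ℓ ^ (1 / 4 : ℝ) * (10 * A)) := by ring
      _ ≤ 1 / 2 * (ℓ ^ (1 / 4 : ℝ) * ℓ ^ (3 / 4 : ℝ)) := by gcongr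
      _ = 1 / 2 * ℓ := by rw [h4]
  · refine lt_of_le_of_lt e3 ?_
    rw [lt_div_iff₀ hℓ0]
    have h4 : ℓ ≤ ℓ ^ B := by
      calc ℓ = ℓ ^ (1 : ℝ) := (Real.rpow_one ℓ).symm
        _ ≤ ℓ ^ B := Real.rpow_le_rpow_of_exponent_le hℓ1 (by rw [hB]; linarith)
    calc e * ℓ ≤ e * ℓ ^ B := by gcongr
      _ = 1 * (ℓ ^ B * e) := by ring
      _ ≤ C * (ℓ ^ B * e) := by gcongr
      _ < 1 := h1
  · refine lt_of_le_of_lt ?_ h1
    have e5 : Real.exp (64 * A * (1 + Real.log ℓ)) = Real.exp (64 * A) * ℓ ^ (64 * A) := by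
      rw [mul_add, mul_one, Real.exp_add, Real.rpow_def_of_pos hℓ0, mul_comm (64 * A) (Real.log ℓ)]
    have e6 : ℓ ^ B = ℓ ^ (64 * A) * ℓ ^ 8 := by
      rw [hB, Real.rpow_add hℓ0]
      norm_cast
    have e7 : 1 + ℓ / κ ≤ (1 + 1 / κ) * ℓ := by
      have : ℓ / κ = 1 / κ * ℓ := by ring
      rw [this, add_mul]
      linarith
    have e8 : 24 * ℓ ^ 2 * Real.exp (-(c * ℓ / (1 + Real.log ℓ) ^ 2)) + 20 * Real.exp (1 - ℓ) ≤
        84 * ℓ ^ 2 * e := by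
      have h4 : 24 * ℓ ^ 2 * Real.exp (-(c * ℓ / (1 + Real.log ℓ) ^ 2)) ≤ 24 * ℓ ^ 2 * e := by
        gcongr
      have h5 : 20 * Real.exp (1 - ℓ) ≤ 20 * (3 * e) := by gcongr
      have h6 : e ≤ ℓ ^ 2 * e := by
        have : 1 ≤ ℓ ^ 2 := one_le_pow₀ hℓ1
        nlinarith
      linarith
    rw [e5, e6, hC]
    calc 10 ^ 6 * ((1 + ℓ / κ) * (Real.exp (64 * A) * ℓ ^ (64 * A)) * ℓ ^ 5 *
          (24 * ℓ ^ 2 * Real.exp (-(c * ℓ / (1 + Real.log ℓ) ^ 2)) + 20 * Real.exp (1 - ℓ))) ≤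
        10 ^ 6 * (((1 + 1 / κ) * ℓ) * (Real.exp (64 * A) * ℓ ^ (64 * A)) * ℓ ^ 5 *
          (84 * ℓ ^ 2 * e)) := by gcongr
      _ = _ := by ring

/-- **QL2-R**: repulsion -/
theorem rep : RepStmt := by
  intro A c κ hA hc hκ
  have hLL : Tendsto (fun r : ℕ => LL r) atTop atTop :=
    tendsto_atTop_add_const_left _ _ (Real.tendsto_log_atTop.comp tendsto_natCast_atTop_atTop)
  obtain ⟨r₀, hr₀⟩ := eventually_atTop.1 (hLL.eventually (large A c κ hA hc hκ))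
  refine ⟨max r₀ 2, ?_⟩
  intro r _ hrp hr χ₁ h1 hsq β hβ0 hβ χ hχ ρ hρ hρ0
  obtain ⟨g1, g2, g3, g4⟩ := hr₀ r (le_trans (le_max_left _ _) hr)
  have hr2 : 2 ≤ r := hrp.two_le
  have hr0 : (0 : ℝ) < r := by exact_mod_cast hrp.pos
  have hlam : lam r = 1 + Real.log (LL r) := rfl
  have hL0 : 0 < LL r := by linarith
  by_contra hcon
  have hcase : χ ≠ χ₁ ∨ κ / LL r ≤ ‖ρ - 1‖ := by
    by_cases hc1 : χ = χ₁
    · right
      by_contra h2
      exact hcon ⟨hc1, not_le.1 h2⟩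
    · exact Or.inl hc1
  set K : ℝ := 1 + LL r / κ with hK
  have hK1 : 1 ≤ K := by
    have : 0 < LL r / κ := by positivity
    linarith
  have hcase' : χ ≠ χ₁ ∨ 1 / K ≤ ‖ρ - 1‖ := by
    rcases hcase with h2 | h2
    · exact Or.inl h2
    · right
      refine le_trans ?_ h2
      rw [div_le_div_iff₀ (by linarith) hL0, one_mul, hK, mul_add, mul_one, mul_div_cancel₀ _ hκ.ne']
      linarith
  have hη : A * lam r / LL r ≤ 1 / 2 := by rw [hlam]; exact g2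
  have h2 := main_ineq hr2 hsq h1 hχ hη hρ.le hρ0 hK1 hcase'
  have hβ1 : ‖β - 1‖ < 1 / LL r := by
    refine lt_of_le_of_lt hβ ?_
    rw [hlam]; exact g3
  have h3 := norm_L_one_le h1 g1 hβ1 hβ0
  have h4 : ‖LFunction χ₁ 1‖ ≤ 24 * LL r ^ 2 * Real.exp (-(c * LL r / (1 + Real.log (LL r)) ^ 2)) := by
    refine h3.trans ?_
    rw [hlam] at hβ
    gcongr
  have h5 : (20 : ℝ) / r = 20 * Real.exp (1 - LL r) := by
    rw [LL, show (1 : ℝ) - (1 + Real.log r) = -Real.log r by ring, Real.exp_neg, Real.exp_log hr0]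
    ring
  have h6 : Real.exp (A * lam r / LL r * (32 * Real.log r)) ^ 2 ≤
      Real.exp (64 * A * (1 + Real.log (LL r))) := by
    rw [← Real.exp_nat_mul]
    apply Real.exp_le_exp.2
    rw [hlam]
    have h7 : Real.log r ≤ LL r := by rw [LL]; linarith
    have h8 : 0 ≤ 1 + Real.log (LL r) := by
      have := Real.log_nonneg (show 1 ≤ LL r by linarith)
      linarith
    calc ((2 : ℕ) : ℝ) * (A * (1 + Real.log (LL r)) / LL r * (32 * Real.log r)) ≤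
          ((2 : ℕ) : ℝ) * (A * (1 + Real.log (LL r)) / LL r * (32 * LL r)) := by gcongr
      _ = 64 * A * (1 + Real.log (LL r)) := by push_cast; field_simp; ring
  have h7 : 10 ^ 6 * (K * Real.exp (A * lam r / LL r * (32 * Real.log r)) ^ 2 * LL r ^ 5 *
      (‖LFunction χ₁ 1‖ + 20 / r)) ≤
      10 ^ 6 * ((1 + LL r / κ) * Real.exp (64 * A * (1 + Real.log (LL r))) * LL r ^ 5 *
        (24 * LL r ^ 2 * Real.exp (-(c * LL r / (1 + Real.log (LL r)) ^ 2)) +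
          20 * Real.exp (1 - LL r))) := by
    rw [← h5]
    gcongr
  linarith

end Vale.Agent.P319.SC.QL.H272
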