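import Vale.Agent.P319.SC.QL.H811.Den
import Vale.Agent.P319.SC.QL.QIface3

/-! P319, block SC, QL3-D: few characters modulo `r` have a zero near `1`, with
`lam r = (1 + log r)^(1/3)`. -/

set_option linter.all false

namespace Vale.Agent.P319.SC.QL3.H272

open Vale.Agent.P319.Ev.IA Vale.Agent.P319.SC.QL.H811

/-- **QL3-D** -/
theorem den : DenStmt := by
  intro A hA
  set K : ℝ := 64 * (1 + 8 * A) ^ 2 with hK
  have hK0 : 0 < K := by positivity
  refine ⟨8 * A + 21, max 4096 ⌈Real.exp (max ((16 * A) ^ 2) K)⌉₊, ?_⟩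
  intro r _ hr hr0 S hS
  have hr1 : 4096 ≤ r := (le_max_left _ _).trans hr0
  have hr2 : Real.exp (max ((16 * A) ^ 2) K) ≤ r := by
    refine (Nat.le_ceil _).trans ?_
    exact_mod_cast (le_max_right _ _).trans hr0
  have hr3 : (0 : ℝ) < r := (Real.exp_pos _).trans_le hr2
  have hr4 : (1 : ℝ) ≤ r := by exact_mod_cast hr.one_lt.le
  have hlog : max ((16 * A) ^ 2) K ≤ Real.log r := by
    rw [Real.le_log_iff_exp_le hr3]
    exact hr2
  have hlog0 : 0 ≤ Real.log r := Real.log_nonneg hr4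
  set l := LL r with hl
  have hll : l = 1 + Real.log r := rfl
  have hl1 : 1 ≤ l := by rw [hll]; linarith
  have hl0 : 0 < l := by linarith
  have hlA : (16 * A) ^ 2 ≤ l := by
    rw [hll]
    linarith [le_max_left ((16 * A) ^ 2) K]
  have hlK : K ≤ l := by
    rw [hll]
    linarith [le_max_right ((16 * A) ^ 2) K]
  have hlam : lam r = l ^ (1 / 3 : ℝ) := rfl
  have hlam1 : 1 ≤ lam r := by
    rw [hlam]
    exact Real.one_le_rpow hl1 (by norm_num)
  have hlam3 : lam r ^ 3 = l := by
    rw [hlam, ← Real.rpow_natCast, ← Real.rpow_mul hl0.le]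
    norm_num
  have hlaml : lam r ≤ l := by
    rw [← hlam3]
    nlinarith [mul_le_mul hlam1 hlam1 zero_le_one (by linarith : (0 : ℝ) ≤ lam r)]
  have hlams : lam r ≤ Real.sqrt l := by
    refine Real.le_sqrt_of_sq_le ?_
    rw [← hlam3]
    nlinarith [sq_nonneg (lam r)]
  set η := A * lam r / l with hη
  have hη0 : 0 < η := by positivity
  have hηl : η * l = A * lam r := by
    rw [hη]
    field_simp
  have hη1 : η ≤ 1 / 16 := by
    rw [hη, div_le_iff₀ hl0]
    have h1 : 16 * A ≤ Real.sqrt l := Real.le_sqrt_of_sq_le hlA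
    have h2 : Real.sqrt l * Real.sqrt l = l := Real.mul_self_sqrt hl0.le
    nlinarith [mul_le_mul_of_nonneg_left hlams hA.le,
      mul_le_mul_of_nonneg_right h1 (Real.sqrt_nonneg l)]
  have hcount := count lapp r hr η hη0 hη1 (small_of r hr1 η hη0 hη1) S hS
  refine hcount.trans ?_
  -- the bound for `T ^ η`
  have hT : ((r ^ 2 * r ^ 2 : ℕ) : ℝ) ^ η ≤ Real.exp (4 * A * lam r) := by
    have h1 : ((r ^ 2 * r ^ 2 : ℕ) : ℝ) = (r : ℝ) ^ (4 : ℝ) := by
      push_cast
      rw [← pow_add]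
      norm_cast
    rw [h1, ← Real.rpow_mul hr3.le, Real.rpow_def_of_pos hr3, Real.exp_le_exp]
    have h2 : Real.log r * η ≤ A * lam r := by
      rw [← hηl, mul_comm]
      exact mul_le_mul_of_nonneg_left (by rw [hll]; linarith) hη0.le
    nlinarith
  have hG : 1 + 2 * η * (1 + 4 * Real.log r) ≤ (1 + 8 * A) * l := by
    have h1 : 1 + 4 * Real.log r ≤ 4 * l := by rw [hll]; linarith
    have h2 : 2 * η * (1 + 4 * Real.log r) ≤ 8 * (A * lam r) := by
      rw [← hηl]
      nlinarith [mul_le_mul_of_nonneg_left h1 hη0.le]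
    have h3 : A * lam r ≤ A * l := mul_le_mul_of_nonneg_left hlaml hA.le
    nlinarith
  have hG0 : 0 ≤ 1 + 2 * η * (1 + 4 * Real.log r) := by positivity
  have h7 : ((r ^ 2 * r ^ 2 : ℕ) : ℝ) ^ η * (1 + 2 * η * (1 + 4 * Real.log r)) ≤
      Real.exp (4 * A * lam r) * ((1 + 8 * A) * l) :=
    mul_le_mul hT hG hG0 (by positivity)
  have hl7 : l * l ^ 6 ≤ Real.exp (21 * lam r) := by
    have h1 : lam r ≤ Real.exp (lam r) := by
      have := Real.add_one_le_exp (lam r)
      linarith
    calc l * l ^ 6 = lam r ^ 21 := by rw [← hlam3]; ring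
      _ ≤ Real.exp (lam r) ^ 21 := pow_le_pow_left₀ (by linarith) h1 21
      _ = Real.exp (21 * lam r) := by
        rw [← Real.exp_nat_mul]
        norm_num
  calc 4 * (((r ^ 2 * r ^ 2 : ℕ) : ℝ) ^ η * (1 + 2 * η * (1 + 4 * Real.log r))) ^ 2 *
        (16 * (1 + Real.log r) ^ 4)
      ≤ 4 * (Real.exp (4 * A * lam r) * ((1 + 8 * A) * l)) ^ 2 * (16 * l ^ 4) := by
        refine mul_le_mul ?_ (by rw [hll]) (by positivity) (by positivity)
        refine mul_le_mul_of_nonneg_left ?_ (by norm_num)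
        exact pow_le_pow_left₀ (by positivity) h7 2
    _ = K * (Real.exp (8 * A * lam r) * l ^ 6) := by
        have e1 : Real.exp (4 * A * lam r) ^ 2 = Real.exp (8 * A * lam r) := by
          rw [← Real.exp_nat_mul]
          congr 1
          push_cast
          ring
        rw [hK, ← e1]
        ring
    _ ≤ l * (Real.exp (8 * A * lam r) * l ^ 6) :=
        mul_le_mul_of_nonneg_right hlK (by positivity)
    _ = Real.exp (8 * A * lam r) * (l * l ^ 6) := by ring
    _ ≤ Real.exp (8 * A * lam r) * Real.exp (21 * lam r) :=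
        mul_le_mul_of_nonneg_left hl7 (Real.exp_pos _).le
    _ = Real.exp ((8 * A + 21) * lam r) := by
        rw [← Real.exp_add]
        congr 1
        ring

end Vale.Agent.P319.SC.QL3.H272
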