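import Mathlib
import Vale.Agent.P319.SC.QL.H272.Rep
import Vale.Agent.P319.SC.QL.QIface3

/-! P319, block SC, QL3-R: repulsion with `lam r = (1 + log r)^(1/3)`. -/

set_option linter.all false

namespace Vale.Agent.P319.SC.QL3.H272

open Finset DirichletCharacter Vale.Agent.P319.Ev.IA Vale.Agent Filter Topology
open Vale.Agent.P319.SC.QL.H272

/-- for large `x` everything is small -/
theorem large3 (A κ : ℝ) (hA : 0 < A) (hκ : 0 < κ) : ∀ᶠ x : ℝ in atTop,
    1 ≤ x ∧ 2 ≤ x ^ 3 ∧ A * x / x ^ 3 ≤ 1 / 2 ∧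
      Real.exp (-((64 * A + 1) * x)) < 1 / x ^ 3 ∧
      10 ^ 6 * ((1 + x ^ 3 / κ) * Real.exp (64 * A * x) * (x ^ 3) ^ 5 *
        (24 * (x ^ 3) ^ 2 * Real.exp (-((64 * A + 1) * x)) + 20 * Real.exp (1 - x ^ 3))) < 1 := by
  set C : ℝ := 10 ^ 6 * ((1 + 1 / κ) * 44) with hC
  have hC0 : 0 < C := by rw [hC]; positivity
  have hC1 : 1 ≤ C := by
    have h1 : (1 : ℝ) ≤ 1 + 1 / κ := by
      have : 0 < 1 / κ := by positivity
      linarith
    rw [hC]
    nlinarith
  have hlim : Tendsto (fun x : ℝ => C * (x ^ 24 * Real.exp (-x))) atTop (𝓝 0) := by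
    have h1 := (Real.tendsto_pow_mul_exp_neg_atTop_nhds_zero 24).const_mul C
    simpa using h1
  filter_upwards [hlim.eventually (gt_mem_nhds zero_lt_one), eventually_ge_atTop (2 : ℝ),
    eventually_ge_atTop (64 * A + 2)] with x h1 h2 h3
  have hx1 : 1 ≤ x := by linarith
  have hx0 : 0 < x := by linarith
  have hx3 : x ≤ x ^ 3 := by
    calc x = x ^ 1 := (pow_one x).symm
      _ ≤ x ^ 3 := pow_le_pow_right₀ hx1 (by norm_num)
  have hx2 : x ≤ x ^ 2 := by
    calc x = x ^ 1 := (pow_one x).symm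
      _ ≤ x ^ 2 := pow_le_pow_right₀ hx1 (by norm_num)
  set e := Real.exp (-x) with he
  have he0 : 0 < e := Real.exp_pos _
  have e1 : Real.exp (64 * A * x) * Real.exp (-((64 * A + 1) * x)) = e := by
    rw [← Real.exp_add, he]; congr 1; ring
  have e2 : Real.exp (64 * A * x) * Real.exp (1 - x ^ 3) ≤ e := by
    rw [← Real.exp_add, he]
    apply Real.exp_le_exp.2
    have h4 : x * (x * (64 * A + 2)) ≤ x * (x * x) := by gcongr
    have h5 : x * (64 * A + 2) ≤ x * (x * (64 * A + 2)) := by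
      have : 1 * (x * (64 * A + 2)) ≤ x * (x * (64 * A + 2)) := by gcongr
      linarith
    have h6 : x * (x * x) = x ^ 3 := by ring
    nlinarith
  refine ⟨hx1, by linarith, ?_, ?_, ?_⟩
  · rw [div_le_iff₀ (by positivity)]
    have h4 : x * (2 * A) ≤ x * (x * x) := by
      have h5 : 2 * A ≤ x := by linarith
      have h6 : x ≤ x * x := by nlinarith
      gcongr
      linarith
    nlinarith
  · rw [lt_div_iff₀ (by positivity)]
    have h4 : Real.exp (-((64 * A + 1) * x)) ≤ e := by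
      rw [he]
      apply Real.exp_le_exp.2
      nlinarith [mul_pos hA hx0]
    have h5 : x ^ 3 ≤ x ^ 24 := pow_le_pow_right₀ hx1 (by norm_num)
    calc Real.exp (-((64 * A + 1) * x)) * x ^ 3 ≤ e * x ^ 24 := by gcongr
      _ = 1 * (x ^ 24 * e) := by ring
      _ ≤ C * (x ^ 24 * e) := by gcongr
      _ < 1 := h1
  · refine lt_of_le_of_lt ?_ h1
    have e7 : 1 + x ^ 3 / κ ≤ (1 + 1 / κ) * x ^ 3 := by
      have h4 : x ^ 3 / κ = 1 / κ * x ^ 3 := by ring
      rw [h4, add_mul]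
      linarith
    have e8 : Real.exp (64 * A * x) *
        (24 * (x ^ 3) ^ 2 * Real.exp (-((64 * A + 1) * x)) + 20 * Real.exp (1 - x ^ 3)) ≤
        44 * (x ^ 3) ^ 2 * e := by
      have h4 : Real.exp (64 * A * x) * (24 * (x ^ 3) ^ 2 * Real.exp (-((64 * A + 1) * x))) =
          24 * (x ^ 3) ^ 2 * e := by rw [← e1]; ring
      have h5 : Real.exp (64 * A * x) * (20 * Real.exp (1 - x ^ 3)) ≤ 20 * e := by
        calc Real.exp (64 * A * x) * (20 * Real.exp (1 - x ^ 3)) =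
            20 * (Real.exp (64 * A * x) * Real.exp (1 - x ^ 3)) := by ring
          _ ≤ 20 * e := by gcongr
      have h6 : e ≤ (x ^ 3) ^ 2 * e := by
        have h7 : (1 : ℝ) ≤ (x ^ 3) ^ 2 := one_le_pow₀ (by linarith)
        nlinarith
      rw [mul_add, h4]
      linarith
    calc 10 ^ 6 * ((1 + x ^ 3 / κ) * Real.exp (64 * A * x) * (x ^ 3) ^ 5 *
          (24 * (x ^ 3) ^ 2 * Real.exp (-((64 * A + 1) * x)) + 20 * Real.exp (1 - x ^ 3))) =
        10 ^ 6 * ((1 + x ^ 3 / κ) * (x ^ 3) ^ 5 * (Real.exp (64 * A * x) *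
          (24 * (x ^ 3) ^ 2 * Real.exp (-((64 * A + 1) * x)) + 20 * Real.exp (1 - x ^ 3)))) := by
            ring
      _ ≤ 10 ^ 6 * (((1 + 1 / κ) * x ^ 3) * (x ^ 3) ^ 5 * (44 * (x ^ 3) ^ 2 * e)) := by gcongr
      _ = C * (x ^ 24 * e) := by rw [hC]; ring

/-- **QL3-R**: repulsion -/
theorem rep : RepStmt := by
  intro A κ hA hκ
  have hLL : Tendsto (fun r : ℕ => LL r) atTop atTop :=
    tendsto_atTop_add_const_left _ _ (Real.tendsto_log_atTop.comp tendsto_natCast_atTop_atTop)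
  have hlamt : Tendsto (fun r : ℕ => lam r) atTop atTop :=
    (tendsto_rpow_atTop (by norm_num : (0 : ℝ) < 1 / 3)).comp hLL
  obtain ⟨r₀, hr₀⟩ := eventually_atTop.1 (hlamt.eventually (large3 A κ hA hκ))
  refine ⟨64 * A + 1, max r₀ 2, by positivity, ?_⟩
  intro r _ hrp hr χ₁ h1 hsq β hβ0 hβ χ hχ ρ hρ hρ0
  obtain ⟨g0, g1, g2, g3, g4⟩ := hr₀ r (le_trans (le_max_left _ _) hr)
  have hr2 : 2 ≤ r := hrp.two_le
  have hr0 : (0 : ℝ) < r := by exact_mod_cast hrp.pos
  have hLL0 : 0 ≤ LL r := by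
    have h2 := one_le_LL (r := r) (by omega)
    linarith
  have hlam3 : lam r ^ 3 = LL r := by
    rw [lam, ← Real.rpow_natCast, ← Real.rpow_mul hLL0]
    norm_num
  rw [hlam3] at g1 g2 g3 g4
  have hL0 : 0 < LL r := by linarith
  have hlam0 : 0 < lam r := by linarith
  by_contra hcon
  have hcase : χ ≠ χ₁ ∨ κ / LL r ≤ ‖ρ - 1‖ := by
    by_cases hc1 : χ = χ₁
    · right
      by_contra h2
      exact hcon ⟨hc1, not_le.1 h2⟩
    · exact Or.inl hc1
  set K : ℝ := 1 + LL r / κ with hK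
  have hK1 : 1 ≤ K := by
    have : 0 < LL r / κ := by positivity
    linarith
  have hcase' : χ ≠ χ₁ ∨ 1 / K ≤ ‖ρ - 1‖ := by
    rcases hcase with h2 | h2
    · exact Or.inl h2
    · right
      refine le_trans ?_ h2
      rw [div_le_div_iff₀ (by linarith) hL0, one_mul, hK, mul_add, mul_one,
        mul_div_cancel₀ _ hκ.ne']
      linarith
  have h2 := main_ineq hr2 hsq h1 hχ g2 hρ.le hρ0 hK1 hcase'
  have hβ1 : ‖β - 1‖ < 1 / LL r := lt_of_le_of_lt hβ g3
  have h3 := norm_L_one_le h1 g1 hβ1 hβ0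
  have h4 : ‖LFunction χ₁ 1‖ ≤ 24 * LL r ^ 2 * Real.exp (-((64 * A + 1) * lam r)) := by
    refine h3.trans ?_
    gcongr
  have h5 : (20 : ℝ) / r = 20 * Real.exp (1 - LL r) := by
    rw [LL, show (1 : ℝ) - (1 + Real.log r) = -Real.log r by ring, Real.exp_neg, Real.exp_log hr0]
    ring
  have h6 : Real.exp (A * lam r / LL r * (32 * Real.log r)) ^ 2 ≤ Real.exp (64 * A * lam r) := by
    rw [← Real.exp_nat_mul]
    apply Real.exp_le_exp.2
    have h7 : Real.log r ≤ LL r := by rw [LL]; linarith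
    calc ((2 : ℕ) : ℝ) * (A * lam r / LL r * (32 * Real.log r)) ≤
          ((2 : ℕ) : ℝ) * (A * lam r / LL r * (32 * LL r)) := by gcongr
      _ = 64 * A * lam r := by push_cast; field_simp; ring
  have h7 : 10 ^ 6 * (K * Real.exp (A * lam r / LL r * (32 * Real.log r)) ^ 2 * LL r ^ 5 *
      (‖LFunction χ₁ 1‖ + 20 / r)) ≤
      10 ^ 6 * ((1 + LL r / κ) * Real.exp (64 * A * lam r) * LL r ^ 5 *
        (24 * LL r ^ 2 * Real.exp (-((64 * A + 1) * lam r)) +
          20 * Real.exp (1 - LL r))) := by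
    rw [← h5]
    gcongr
  linarith

end Vale.Agent.P319.SC.QL3.H272
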